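import Vale.Agent.P218N.Ra.Defs
import Vale.Agent.P218N.End.ApiReal
import Vale.Agent.P218N.End.ApiFar
import Vale.Agent.P218N.Glue.EnvM

/-! The statement of the block EXT; the jets of the ends of a shrinker. -/

open Set Filter Topology Metric

noncomputable section

namespace Vale.Agent.P218N.Ra

open Vale.Agent.P218N.H Vale.Agent.P218N.End Vale.Agent.P218N.Core

/-- the solutions of the core problem extend to truncated solutions -/
def ExtStmt : Prop := ∀ (w : E3 → ℝ) (D : EndData w) (jE : En D → Path → EJ)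
  (dS πS : En D → ℝ → WD) (Z C : ℝ), RealEnds D jE dS πS Z C → ∀ G : Geo D, ∃ z1 : ℝ, ∀ zm,
  z1 ≤ zm → ∀ (N M : ℕ) (ψ : Fin N ⊕ Fin D.b → E3 → ℝ) (P : Fin M → Patch (SS w))
    (O : Fin M → Set R2) (C0 : ℝ) (g ρ : Fin D.b → ℝ), PsiF G zm ψ → (∀ b, g b ≠ 0 ∧ ρ b ≠ 0) →
    (∀ ε > 0, ∀ᶠ n in atTop, ∃ r C' u jc lm Fc,
      CoreBox G zm ψ P O (fun e => Res 4 n (jE e (gam zm 0 n))) n r C' u jc lm Fc ∧
        OutF zm n C0 ε g ρ (fderiv ℂ jc 0)) →
    ∃ n r C' u jc lm Fc, 4 ≤ n ∧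
      CoreBox G zm ψ P O (fun e => Res 4 n (jE e (gam zm 0 n))) n r C' u jc lm Fc ∧
      ∃ I c r' κ' C R0 yf cf om v F, Ext zm n r jc lm Fc I c r' κ' C R0 yf cf om v F

theorem realEnds {w : E3 → ℝ} (hw : Shr w) (D : EndData w) :
    ∃ jE dS πS Z C, RealEnds D jE dS πS Z C := by
  have k2 : ∀ i, ∃ jS dS πS Z B, ConeEnd (D.h i) (cc i) (ka i) (kd i) jS dS πS Z B := fun i => by
    obtain ⟨Z, B, -, h⟩ := coneEnd_of (D.link i) (D.hdec i) (eventually_coneEq hw D i)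
    have e : kaf i = kaL (D.γ i) (D.n i) (D.l i) := funext fun θ => by
      rw [kaf, kaL, cc, inv_pow, div_eq_inv_mul]
    have e1 : ka i = kaD (D.γ i) (D.n i) (D.l i) := by rw [ka, e, kaD]
    have e2 : kd i = kdD (D.γ i) (D.n i) (D.l i) := by
      simp only [kd, kdf, e, kdD, cc]
    rw [one_div, ← e1, ← e2] at h
    exact ⟨_, _, _, Z, B, h⟩
  choose j1 d1 p1 Z1 C1 h1 using cylEnd farCyl hw D
  choose j2 d2 p2 Z2 C2 h2 using k2
  obtain ⟨Za, hZa⟩ := Finite.exists_le Z1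
  obtain ⟨Zb, hZb⟩ := Finite.exists_le Z2
  obtain ⟨Ca, hCa⟩ := Finite.exists_le C1
  obtain ⟨Cb, hCb⟩ := Finite.exists_le C2
  exact ⟨Sum.elim j2 j1, Sum.elim d2 d1, Sum.elim p2 p1, max (max Za Zb) 0, max Ca Cb,
    fun b => Glue.EnvP.cylEnd_mono (h1 b)
      ((hZa b).trans ((le_max_left _ _).trans (le_max_left _ _))) (le_max_right _ _)
      ((hCa b).trans (le_max_left _ _)), fun i => Glue.EnvP.coneEnd_mono (h2 i)
      ((hZb i).trans ((le_max_right _ _).trans (le_max_left _ _)))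
      ((hCb i).trans (le_max_right _ _))⟩

end Vale.Agent.P218N.Ra
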