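import Vale.Agent.P218N.Ra.Bas
import Vale.Agent.P218N.Core.Var
import Vale.Agent.P218N.Core.EndF
import Vale.Agent.P218N.Core.Ctx

/-! The assembly of `Red`: the area. -/

open Set Filter Topology Metric MeasureTheory
open scoped RealInnerProductSpace ContDiff

noncomputable section

namespace Vale.Agent.P218N.Ra

open Vale.Agent.P218.H313 Vale.Agent.P218N.H Vale.Agent.P218N.G Vale.Agent.P218N.End
  Vale.Agent.P218N.Core Vale.Agent.P218F Vale.Agent.P218GA

set_option maxSynthPendingDepth 3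
set_option linter.unusedSectionVars false

variable {w : E3 → ℝ} {D : EndData w} {J κ : Type} [Fintype J] [DecidableEq J]

namespace AreaP

theorem c2_pt (G : Geo D) (e : En D) {q : R2} (hq : G.z0 < q.1) : ContDiffAt ℝ 2 (pt e) q :=
  G.ep_φ e q.2 ▸ Var.cd _ (Var.mem_ep G e hq)

/-- the integral of an integrable function which is supported in the ends -/
theorem ends (G : Geo D) {f : E3 → ℂ} {a b : ℝ} (hi : Integrable f (muS w)) (ha : G.z0 < a)
    (hab : a ≤ b) (h0 : ∀ p, w p = 0 → G.σ p ∉ Icc a b → f p = 0) : ∫ p, f p ∂(muS w) =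
      ∑ e : En D, ∫ ζ in a..b, ∫ θ in (0 : ℝ)..2 * Real.pi,
        f (pt e (ζ, θ)) * Complex.sqrt (dg (jS (pt e) (ζ, θ))) := by
  have hπ : 0 < 2 * Real.pi := by positivity
  set K : Set R2 := Icc a b ×ˢ Ioc 0 (2 * Real.pi) with hK
  have hm : MeasurableSet K := measurableSet_Icc.prod measurableSet_Ioc
  have hO : IsOpen {q : R2 | G.z0 < q.1} := isOpen_lt continuous_const continuous_fst
  have hKO : K ⊆ {q : R2 | G.z0 < q.1} := fun q hq => ha.trans_le hq.1.1
  have c1 : ∀ e : En D, ContDiffOn ℝ 1 (pt e) {q : R2 | G.z0 < q.1} := fun e q hq =>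
    ((c2_pt G e hq).of_le (by norm_num)).contDiffWithinAt
  have im : ∀ e : En D, ∀ q ∈ {q : R2 | G.z0 < q.1}, Function.Injective (fderiv ℝ (pt e) q) :=
    fun e q hq => G.ep_φ e q.2 ▸ (G.ep e q.2).imm q (Var.mem_ep G e hq)
  have hS : ∀ e : En D, pt e '' K ⊆ SS w := fun e => image_subset_iff.2 fun q hq =>
    G.ep_φ e q.2 ▸ ((G.ep e q.2).maps q (Var.mem_ep G e (hKO hq))).1
  have inj : ∀ e : En D, InjOn (pt e) K := fun e q hq q' hq' h => by
    obtain ⟨k, rfl⟩ := G.inj e q q' (hKO hq) (hKO hq') h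
    have h1 : (k : ℝ) < 1 := by nlinarith [hq.2.1, hq'.2.2]
    have h2 : (-1 : ℝ) < k := by nlinarith [hq.2.2, hq'.2.1]
    obtain rfl : k = 0 := by
      have h1 : k < 1 := by exact_mod_cast h1
      have h2 : -1 < k := by exact_mod_cast h2
      omega
    simp
  rw [← setIntegral_eq_integral_of_ae_compl_eq_zero (s := ⋃ e : En D, pt e '' K)
    ((Var.ae_mem G).mono fun p hp h => h0 p hp fun h' => h ?_), integral_iUnion_fintype
      (fun e => measurableSet_image (c1 e).continuousOn hm hKO (inj e)) (fun e e' hne => ?_)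
      fun e => hi.integrableOn]
  · refine Finset.sum_congr rfl fun e _ => ?_
    have e1 : EqOn (fun q => Var.ar (pt e) q • f (pt e q))
        (fun q => f (pt e q) * Complex.sqrt (dg (jS (pt e) q))) K := fun q hq => by
      simp only [Var.sqrt_dg (c2_pt G e (hKO hq)), Complex.real_smul, mul_comm]
    rw [Var.integral_image hO (c1 e) (im e) hm hKO (inj e) (hS e), setIntegral_congr_fun hm e1,
      intervalIntegral.integral_of_le hab, ← integral_Icc_eq_integral_Ioc]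
    simp only [intervalIntegral.integral_of_le hπ.le]
    exact setIntegral_prod _ (((Var.integrableOn_image hO (c1 e) (im e) hm hKO (inj e) (hS e) f).1
      hi.integrableOn).congr_fun e1 hm)
  · refine disjoint_left.2 ?_
    rintro _ ⟨q, hq, rfl⟩ ⟨q', hq', h⟩
    have h1 := G.ind_pt e e q (hKO hq)
    rw [← h, G.ind_pt e e' q' (hKO hq')] at h1
    simp [hne] at h1
  · obtain ⟨e, q, hq, rfl⟩ := G.cover p hp (ha.trans_le h'.1)
    rw [G.σ_pt e q hq] at h'
    refine mem_iUnion.2 ⟨e, (q.1, toIocMod hπ 0 q.2), ⟨h', by simpa using toIocMod_mem_Ioc hπ 0 q.2⟩,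
      ?_⟩
    exact Function.Periodic.sub_zsmul_eq (f := fun θ => pt e (q.1, θ)) (Iv.per e q.1) _

theorem dg_real {j : J2 C3} (h : star j = j) : ∃ r : ℝ, 0 ≤ r ∧ dg j = r := by
  have e : ∀ k i, (((j k i).re : ℝ) : ℂ) = j k i := fun k i =>
    Complex.conj_eq_iff_re.1 (congrFun (congrFun h k) i)
  refine ⟨((j 1 0).re * (j 2 1).re - (j 1 1).re * (j 2 0).re) ^ 2 +
    ((j 1 0).re * (j 2 2).re - (j 1 2).re * (j 2 0).re) ^ 2 +
    ((j 1 1).re * (j 2 2).re - (j 1 2).re * (j 2 1).re) ^ 2, by positivity, ?_⟩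
  simp only [dg, g11, g12, g22, JA.dot3]
  push_cast
  simp only [e]
  ring

/-- the area density is continuous at real jets -/
theorem lam_cont {a : J2 (WW D)} (h : star a = a) {r : ℝ} (hr : 0 < r) (hp : dg (pJ a) = r) :
    ContinuousAt (Core.lam (D := D)) a := by
  obtain ⟨s, hs, hx⟩ := dg_real (JA.xJ_cj.symm.trans (congrArg xJ h))
  have h1 := JA.sm_quot (a := a) (by rw [hp]; exact_mod_cast hr.ne')
  have h2 : ContinuousAt Complex.sqrt (dg (xJ a) / dg (pJ a)) := Complex.continuousAt_sqrt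
    (Or.inl (by rw [hx, hp, ← Complex.ofReal_div, Complex.ofReal_re]; positivity))
  exact (JA.sm_eG.comp JA.smX).continuous.continuousAt.mul
    (ContinuousAt.comp (g := Complex.sqrt) h2 h1.continuousAt)

theorem continuous_emb (c : Fin D.b → ℂ × ℂ) : Continuous (emb (D := D) c) :=
  continuous_pi fun k => continuous_const.prodMk (continuous_const.prodMk
    (continuous_const.prodMk (continuous_const.prodMk (continuous_apply k))))

theorem star_emb {c : Fin D.b → ℂ × ℂ} {m : J2 ℂ} (hc : star c = c) (hm : star m = m) :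
    star (emb (D := D) c m) = emb c m := by
  funext k
  have h1 : star (m k) = m k := congrFun hm k
  by_cases h : k = 0 <;> simp [emb, h, hc, Prod.star_def] <;> simpa [h] using h1

/-- the complex area density -/
def ff (X : Dt D J κ) (R : ℕ) (ξ : J → ℂ) (p : E3) : ℂ :=
  Core.lam (X.G.aG X.zm (X.cf ξ) (X.U R ξ) p)

/-- the area density on an end -/
def FF (X : Dt D J κ) (R : ℕ) (ξ : J → ℂ) (e : En D) (q : R2) : ℂ :=
  ff X R ξ (pt e q) * Complex.sqrt (dg (jS (pt e) q))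

/-- the area of the circles -/
def hh (X : Dt D J κ) (R : ℕ) (ξ : J → ℂ) (e : En D) (ζ : ℝ) : ℂ :=
  (cut X.zm 4 ζ : ℝ) * ∫ θ in (0 : ℝ)..2 * Real.pi, FF X R ξ e (ζ, θ)

variable {X : Dt D J κ} {R : ℕ} {ξ : J → ℂ} {x : J → ℝ}

theorem T_le (hR : X.R0 ≤ R) : TT X.zm X.n ≤ R / 8 := by linarith [X.R_ge hR]

theorem lt_half (hR : X.R0 ≤ R) : (R : ℝ) / 8 < R / 2 := by
  linarith [X.R_ge hR, X.T_ge, X.hz']

theorem ff_chart (hR : X.R0 ≤ R) (hξ : ξ ∈ Dom X.I X.c X.r' R) (P : Patch (SS w)) {y : R2}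
    (hy : y ∈ P.O) (h : X.G.σ (P.φ y) < R / 2) : ff X R ξ (P.φ y) =
      Core.lam (X.G.bJ X.zm P.φ y + emb (X.cf ξ) (jet2 (fun z => X.U R ξ (P.φ z)) y)) :=
  ((invStmt' w D X.G X.zm).inv P y hy _ _ (Dt.U_c2 hR hξ P hy h) _ rfl).2.2.2

theorem ff_cont (hR : X.R0 ≤ R) (hx : re2c x ∈ Dom X.I X.c X.r' R) (P : Patch (SS w)) {y : R2}
    (hy : y ∈ P.O) (h : X.G.σ (P.φ y) < R / 2) :
    ContinuousAt (fun z => ff X R (re2c x) (P.φ z)) y := by
  have ev : ∀ᶠ z in 𝓝 y, z ∈ P.O ∧ X.G.σ (P.φ z) < R / 2 := (P.ev_mem hy).and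
    ((X.G.σ_sm.continuous.continuousAt.comp (P.cdAt hy).continuousAt).eventually (gt_mem_nhds h))
  have hU := Dt.U_c2 hR hx P hy h
  obtain ⟨r1, -, r3⟩ := Dt.real hR hx
  obtain ⟨-, -, b3, b4, -, -, -, b8⟩ := (invStmt' w D X.G X.zm).base P y hy
  have hm : star (jet2 (fun z => X.U R (re2c x) (P.φ z)) y) =
      jet2 (fun z => X.U R (re2c x) (P.φ z)) y :=
    (jet2_clm (Complex.conjCLE : ℂ →L[ℝ] ℂ) hU).symm.trans (jet2_congr (ev.mono fun z hz =>
      Complex.conj_eq_iff_im.2 (r3 _ (P.maps z hz.1).1 hz.2)))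
  have h1 := lam_cont (a := X.G.bJ X.zm P.φ y +
      emb (X.cf (re2c x)) (jet2 (fun z => X.U R (re2c x) (P.φ z)) y))
    (by rw [star_add, b3, star_emb r1 hm]) (pow_pos (Var.ar_pos (P.imm y hy)) 2)
    (by rw [JA.pJ_emb, b4, Var.dg_jS (Var.cd P hy)])
  have h2 := b8.continuousAt.add
    ((continuous_emb (X.cf (re2c x))).continuousAt.comp (Var.continuousAt_jet2 hU))
  exact (ContinuousAt.comp_of_eq h1 h2 rfl).congr
    (ev.mono fun z hz => (ff_chart hR hx P hz.1 hz.2).symm)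

theorem ff_on (hR : X.R0 ≤ R) (hx : re2c x ∈ Dom X.I X.c X.r' R) :
    ContinuousOn (ff X R (re2c x)) {p | w p = 0 ∧ X.G.σ p ≤ R / 8} := fun p hp => by
  obtain ⟨h1, h2⟩ := Var.exists_chart X.G hp.1
  have h3 := ff_cont hR hx (X.G.pa p) h1 (by rw [h2]; exact hp.2.trans_lt (lt_half hR))
  refine ContinuousWithinAt.mono (t := SS w) ?_ fun q hq => hq.1
  rw [ContinuousWithinAt, ← h2, ← Var.map_nhds _ h1, tendsto_map'_iff]
  exact h3

theorem int_mul (hR : X.R0 ≤ R) (hx : re2c x ∈ Dom X.I X.c X.r' R) {g : E3 → ℝ}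
    (hg : Continuous g) :
    IntegrableOn (fun p => (g p : ℂ) * ff X R (re2c x) p) {p | X.G.σ p < R / 8} (muS w) := by
  have := Var.locFin X.G
  exact (((Complex.continuous_ofReal.comp hg).continuousOn.mul (ff_on hR hx)).integrableOn_compact
    (X.G.cpt _)).mono_set_ae ((Var.ae_mem X.G).mono fun p hp h => ⟨hp, le_of_lt h⟩)

theorem FF_cont (hR : X.R0 ≤ R) (hx : re2c x ∈ Dom X.I X.c X.r' R) (e : En D) {q : R2}
    (h1 : X.G.z0 < q.1) (h2 : q.1 < R / 2) : ContinuousAt (FF X R (re2c x) e) q := by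
  have h3 := ff_cont hR hx (X.G.ep e q.2) (Var.mem_ep X.G e h1)
    (by rwa [X.G.ep_φ, X.G.σ_pt e q h1])
  rw [X.G.ep_φ] at h3
  refine h3.mul ((Complex.continuous_ofReal.continuousAt.comp
    (Var.continuousAt_ar (c2_pt X.G e h1))).congr ((ev_lt h1).mono fun z hz => ?_))
  exact (Var.sqrt_dg (c2_pt X.G e hz)).symm

theorem hh_cont (hR : X.R0 ≤ R) (hx : re2c x ∈ Dom X.I X.c X.r' R) (e : En D) :
    ContinuousOn (hh X R (re2c x) e) (Icc (X.zm + 4) (R / 8)) := by
  refine (Complex.continuous_ofReal.comp (contDiff_cut X.zm 4).continuous).continuousOn.mul ?_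
  rw [continuousOn_iff_continuous_domRestrict]
  refine intervalIntegral.continuous_parametric_intervalIntegral_of_continuous'
    (f := fun (ζ : Icc (X.zm + 4) (R / 8)) θ => FF X R (re2c x) e (ζ.1, θ)) ?_ _ _
  refine continuous_iff_continuousAt.2 fun z => ContinuousAt.comp (g := FF X R (re2c x) e)
    (f := fun z : Icc (X.zm + 4) (R / 8) × ℝ => (z.1.1, z.2)) (FF_cont hR hx e ?_ ?_) (by fun_prop)
  · linarith [z.1.2.1, X.hz]
  · exact z.1.2.2.trans_lt (lt_half hR)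

theorem FF_eq (hR : X.R0 ≤ R) (hξ : ξ ∈ Dom X.I X.c X.r' R) (e : En D) {q : R2}
    (hq : q.1 ∈ Ioo (X.zm + 4) (R / 2)) :
    FF X R ξ e q = lagE e q (jy e q + jet2 (X.v R ξ e) q) := by
  have h1 : X.G.z0 < q.1 := by linarith [hq.1, X.hz]
  have h3 := ff_chart hR hξ (X.G.ep e q.2) (Var.mem_ep X.G e h1)
    (by rw [X.G.ep_φ, X.G.σ_pt e q h1]; exact hq.2)
  rw [X.G.ep_φ, jet2_congr (Dt.U_pt_ev hR hξ e hq.1),
    jet2_smul _ (X.ext.vc2 R hR ξ hξ e q hq)] at h3
  rw [FF, h3]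
  exact (endFStmt w D X.G X.zm).lag e q _ _ h1 (by linarith [hq.1])

theorem jev_eq (hR : X.R0 ≤ R) (hξ : ξ ∈ Dom X.I X.c X.r' R) (e : En D) {q : R2}
    (hq : q.1 ∈ Ioo (X.zm + 4) (TT X.zm X.n)) : jy e q + jet2 (X.v R ξ e) q =
      jev X.zm (ctr (gam X.zm 4 X.n) e) (X.jc (X.x R ξ) e) q := by
  obtain ⟨c1, c2⟩ := (pathStmt w D X.zm X.hz').c2 4 X.n e (X.jc (X.x R ξ) e) q
    (X.box.jet _ (Dt.x_mem hR hξ) e) (by simpa using hq)
  have hv := X.ext.vc2 R hR ξ hξ e q ⟨hq.1, hq.2.trans ((T_le hR).trans_lt (lt_half hR))⟩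
  have e1 : (fun z => (yS e z : ℂ)) =ᶠ[𝓝 q]
      fun z => ev (X.jc (X.x R ξ) e).y (tt X.zm z.1) z.2 - X.v R ξ e z := by
    filter_upwards [(isOpen_Ioo.preimage continuous_fst).mem_nhds hq] with z hz
    rw [X.ext.vcore R hR ξ hξ e z (Ioo_subset_Icc_self hz), Dt.x]
    ring
  rw [← c2, jy, ← jet2_add ((c1.sub hv).congr_of_eventuallyEq e1) hv]
  exact jet2_congr (e1.mono fun z hz => by simp only [hz, sub_add_cancel])

theorem FE_eq (hR : X.R0 ≤ R) (hx : re2c x ∈ Dom X.I X.c X.r' R) (e : En D) :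
    ∫ ζ in (X.zm + 4)..TT X.zm X.n, hh X R (re2c x) e ζ =
      FE X.zm X.n e (X.jc (X.x R (re2c x)) e) := by
  have P := pathStmt w D X.zm X.hz'
  have h0 := P.int 4 X.n (hh X R (re2c x) e) X.hn
    (by simpa using (hh_cont hR hx e).mono (Icc_subset_Icc_right (T_le hR)))
  rw [Nat.cast_ofNat] at h0
  rw [← h0, FE]
  refine intervalIntegral.integral_congr fun t _ => ?_
  by_cases h1 : t ≤ tau 4
  · simp [PathP.gr_lo h1]
  by_cases h2 : tau (X.n + 1) ≤ t
  · simp [PathP.gr_hi h2]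
  have h4 : tt X.zm (zr X.zm 4 X.n t) = t :=
    (P.tt_zr 4 X.n t X.hn).trans (PathP.clp_of_mem ⟨(not_le.1 h1).le, (not_le.1 h2).le⟩)
  have hm := P.mem 4 X.n t X.hn
  have lo : X.zm + (4 : ℕ) ≠ zr X.zm 4 X.n t := fun h => h1 (by
    rw [← h4, ← h, ← P.lo 4 X.n _ le_rfl, P.tt_zr 4 X.n _ X.hn, PathP.clp_lo le_rfl])
  have hi : zr X.zm 4 X.n t ≠ TT X.zm X.n := fun h => h2 (by
    rw [← h4, h, ← P.hi 4 X.n _ X.hn le_rfl, P.tt_zr 4 X.n _ X.hn, PathP.clp_hi X.hn le_rfl])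
  have hq : zr X.zm 4 X.n t ∈ Ioo (X.zm + 4) (TT X.zm X.n) :=
    ⟨by simpa using lt_of_le_of_ne hm.1 lo, lt_of_le_of_ne hm.2 hi⟩
  have e1 : ∀ θ, FF X R (re2c x) e (zr X.zm 4 X.n t, θ) = lagE e (zr X.zm 4 X.n t, θ)
      fun k => ev (jw (ctr (gam X.zm 4 X.n) e) (X.jc (X.x R (re2c x)) e) k) t θ := fun θ => by
    rw [FF_eq hR hx e ⟨hq.1, hq.2.trans ((T_le hR).trans_lt (lt_half hR))⟩, jev_eq hR hx e hq]
    unfold jev
    simp only [h4]
  simp only [hh, e1]
  push_cast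
  ring

theorem core_eq (hR : X.R0 ≤ R) (hξ : ξ ∈ Dom X.I X.c X.r' R) :
    ∫ p in {p | X.G.σ p < R / 8}, ((1 - cut X.zm 4 (X.G.σ p) : ℝ) : ℂ) * ff X R ξ p ∂(muS w) =
      ∫ p, (1 - cut X.zm 4 (X.G.σ p) : ℝ) *
        Core.lam (X.G.aG X.zm (X.cf ξ) (X.u (X.x R ξ)) p) ∂(muS w) := by
  rw [← integral_indicator (isOpen_lt X.G.σ_sm.continuous continuous_const).measurableSet]
  refine integral_congr_ae ((Var.ae_mem X.G).mono fun p hp => ?_)
  by_cases h : X.G.σ p < TT X.zm X.n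
  · have e1 : X.U R ξ =ᶠ[𝓝[SS w] p] X.u (X.x R ξ) := by
      filter_upwards [self_mem_nhdsWithin, nhdsWithin_le_nhds
        (X.G.σ_sm.continuous.continuousAt.eventually (gt_mem_nhds h))] with q h1 h2 using
        Dt.U_core hR hξ h1 h2.le
    rw [indicator_of_mem (show p ∈ {p | X.G.σ p < R / 8} from h.trans_le (T_le hR))]
    simp only [ff, Geo.aG, Var.jG_congr hp e1]
  · have e1 : cut X.zm 4 (X.G.σ p) = 1 := cut_one (by push_cast; linarith [X.T_ge, not_lt.1 h])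
    simp [indicator, e1]

theorem end_eq (hR : X.R0 ≤ R) (hx : re2c x ∈ Dom X.I X.c X.r' R) :
    ∫ p in {p | X.G.σ p < R / 8}, ((cut X.zm 4 (X.G.σ p) : ℝ) : ℂ) * ff X R (re2c x) p ∂(muS w) =
      ∑ e, FE X.zm X.n e (X.jc (X.x R (re2c x)) e) + ∑ e, ∫ ζ in TT X.zm X.n..R / 8,
        ∫ θ in (0 : ℝ)..2 * Real.pi,
          lagE e (ζ, θ) (jy e (ζ, θ) + jet2 (X.v R (re2c x) e) (ζ, θ)) := by
  have hm := (isOpen_lt X.G.σ_sm.continuous (continuous_const (y := (R : ℝ) / 8))).measurableSet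
  have h1 : X.zm + 4 ≤ TT X.zm X.n := by linarith [X.T_ge]
  have h2 := T_le hR
  rw [← integral_indicator hm, ends X.G (a := X.zm + 4) (b := R / 8) ((integrable_indicator_iff hm).2
    (int_mul hR hx (g := fun p => cut X.zm 4 (X.G.σ p))
      ((contDiff_cut X.zm 4).continuous.comp X.G.σ_sm.continuous)))
    (by linarith [X.hz]) (h1.trans h2) fun p _ h => ?_, ← Finset.sum_add_distrib]
  · refine Finset.sum_congr rfl fun e _ => ?_
    have hc := hh_cont hR hx e
    rw [← FE_eq hR hx e, intervalIntegral.integral_congr_Ioo_of_le (g := hh X R (re2c x) e)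
      (h1.trans h2) fun ζ hζ => ?_, ← intervalIntegral.integral_add_adjacent_intervals
        ((hc.mono (Icc_subset_Icc_right h2)).intervalIntegrable_of_Icc h1)
        ((hc.mono (Icc_subset_Icc_left h1)).intervalIntegrable_of_Icc h2)]
    · congr 1
      refine intervalIntegral.integral_congr_Ioo_of_le h2 fun ζ hζ => ?_
      have e1 : cut X.zm 4 ζ = 1 := cut_one (by push_cast; linarith [X.T_ge, hζ.1])
      simp only [hh, e1, Complex.ofReal_one, one_mul]
      exact intervalIntegral.integral_congr fun θ _ =>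
        FF_eq hR hx e ⟨h1.trans_lt hζ.1, hζ.2.trans (lt_half hR)⟩
    · simp only [hh, ← intervalIntegral.integral_const_mul]
      refine intervalIntegral.integral_congr fun θ _ => ?_
      have e1 := X.G.σ_pt e (ζ, θ) (by linarith [hζ.1, X.hz])
      simp only [FF]
      rw [indicator_of_mem (show pt e (ζ, θ) ∈ {p | X.G.σ p < R / 8} from e1.trans_lt hζ.2), e1,
        mul_assoc]
  · by_cases h3 : X.G.σ p < R / 8
    · have h4 : X.G.σ p < X.zm + 4 := not_le.1 fun h4 => h ⟨h4, h3.le⟩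
      rw [indicator_of_mem (show p ∈ {p | X.G.σ p < R / 8} from h3),
        cut_zero (by push_cast; linarith), Complex.ofReal_zero, zero_mul]
    · exact indicator_of_notMem (show p ∉ {p | X.G.σ p < R / 8} from h3) _

end AreaP

namespace Dt
variable (X : Dt D J κ)

open AreaP in
theorem areaF : X.AreaF := fun R hR x hx => by
  have hc : Continuous fun p => cut X.zm 4 (X.G.σ p) :=
    (contDiff_cut X.zm 4).continuous.comp X.G.σ_sm.continuous
  have i1 := int_mul hR hx (g := fun p => 1 - cut X.zm 4 (X.G.σ p)) (continuous_const.sub hc)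
  have i2 := int_mul hR hx hc
  have e0 : ∀ p, ff X R (re2c x) p = ((1 - cut X.zm 4 (X.G.σ p) : ℝ) : ℂ) * ff X R (re2c x) p +
      ((cut X.zm 4 (X.G.σ p) : ℝ) : ℂ) * ff X R (re2c x) p := fun p => by
    push_cast
    ring
  have i0 : IntegrableOn (ff X R (re2c x)) {p | X.G.σ p < R / 8} (muS w) :=
    (funext e0 : ff X R (re2c x) = _) ▸ i1.add i2
  have key : ∫ p in {p | X.G.σ p < R / 8}, ff X R (re2c x) p ∂(muS w) = _ :=
    (integral_congr_ae (Eventually.of_forall e0)).trans ((integral_add i1 i2).trans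
      ((congrArg₂ (· + ·) (core_eq hR hx) (end_eq hR hx)).trans ((add_assoc _ _ _).symm.trans
        (congrArg (· + _) (X.box.F_eq _ (x_mem hR hx)).symm))))
  have h := X.ext.area R hR x hx
  have e1 : sig 2 w = cH 2 • muS w := by
    rw [sig, muS, Nat.cast_ofNat, Var.hausdorff_two, Measure.restrict_smul]
  have e2 : ∫ p in {p | X.G.σ p < R / 8}, X.lag R x p ∂(muS w) =
      (∫ p in {p | X.G.σ p < R / 8}, ff X R (re2c x) p ∂(muS w)).re :=
    Complex.reCLM.integral_comp_comm i0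
  rw [e1, Measure.restrict_smul, integral_smul_nnreal_measure, NNReal.smul_def, smul_eq_mul,
    inv_mul_cancel_left₀ (cH_pos' 2).ne', e2, key, ← Complex.sub_re]
  exact (Complex.abs_re_le_norm _).trans h

end Dt

end Vale.Agent.P218N.Ra
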