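import Vale.Agent.P218N.Ra.Defs
import Vale.Agent.P218N.Core.Inv
import Vale.Agent.P218N.Core.PathC
import Vale.Agent.P218N.D6.Ser0

/-! The assembly of `Red`: basic facts. -/

open Set Filter Topology Metric MeasureTheory
open scoped RealInnerProductSpace ContDiff

noncomputable section

namespace Vale.Agent.P218N.Ra

open Vale.Agent.P218.H313 Vale.Agent.P218N.H Vale.Agent.P218N.G Vale.Agent.P218N.End
  Vale.Agent.P218N.Core Vale.Agent.P218F Vale.Agent.P218GA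

set_option maxSynthPendingDepth 3
set_option linter.unusedSectionVars false

variable {w : E3 → ℝ} {D : EndData w} {J κ : Type} [Fintype J] [DecidableEq J]

/-- the change of coordinates `(s, θ) ↦ (ζ, θ)` -/
def co (e : En D) (v : R2) : R2 := (D6.endSg D e v.1, v.2)

theorem ev_lt {a : ℝ} {v : R2} (hv : a < v.1) : ∀ᶠ y : R2 in 𝓝 v, a < y.1 :=
  (isOpen_lt continuous_const continuous_fst).mem_nhds hv

theorem endPt_eq (e : En D) {v : R2} (hv : 0 ≤ v.1) : D6.endPt D e v = pt e (co e v) := by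
  rcases e with i | b
  · simp [D6.endPt, pt, co, D6.endSg]
  · simp [D6.endPt, pt, co, D6.endSg, Real.sqrt_sq hv]

theorem endPt_ev (e : En D) {v : R2} (hv : 0 < v.1) : D6.endPt D e =ᶠ[𝓝 v] fun y => pt e (co e y) :=
  (ev_lt hv).mono fun _ hy => endPt_eq e hy.le

theorem co_smooth (e : En D) : ContDiff ℝ ∞ (co e) := by
  rcases e with i | b <;> unfold co <;> simp only [D6.endSg, Sum.elim_inl, Sum.elim_inr] <;> fun_prop

namespace Dt
variable (X : Dt D J κ)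

theorem s1_pos : 0 < X.s1 := Real.sqrt_pos.2 (by linarith [X.hz'])

theorem lt_co (e : En D) {v : R2} (hv : X.s1 < v.1) : X.zm + 4 < (co e v).1 := by
  have h1 : X.zm + 4 < v.1 ^ 2 := (Real.sqrt_lt' (X.s1_pos.trans hv)).1 hv
  rcases e with i | b
  · have := Real.quadratic_le_exp_of_nonneg (show 0 ≤ 2 * v.1 by linarith [X.s1_pos])
    exact h1.trans_le (le_trans (by nlinarith [X.s1_pos]) this)
  · exact h1

theorem T_ge : X.zm + 5 ≤ TT X.zm X.n := by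
  have : (4 : ℝ) ≤ X.n := by exact_mod_cast X.hn
  unfold TT
  linarith

theorem R_ge {R : ℕ} (hR : X.R0 ≤ R) : 8 * TT X.zm X.n ≤ R := X.ext.R01.trans (by exact_mod_cast hR)

theorem R01 : 1 ≤ X.R0 := by
  have : (1 : ℝ) ≤ X.R0 := by linarith [X.ext.R01, X.T_ge, X.hz']
  exact_mod_cast this

theorem zero_mem {R : ℕ} (hR : X.R0 ≤ R) : (0 : J → ℂ) ∈ Dom X.I X.c X.r' R :=
  ⟨by simpa using X.ext.r0, fun i _ => by
    simpa using div_pos X.ext.c0 (by exact_mod_cast X.R01.trans hR)⟩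

theorem dom_succ {R : ℕ} (hR : X.R0 ≤ R) : Dom X.I X.c X.r' (R + 1) ⊆ Dom X.I X.c X.r' R :=
  D6.Ser.dom_succ X.ext.c0 (X.R01.trans hR)

theorem isOpen_dom (R : ℕ) : IsOpen (Dom X.I X.c X.r' R) := by
  refine isOpen_iff_mem_nhds.2 fun ξ hξ => Eventually.and
    ((isOpen_lt continuous_norm continuous_const).mem_nhds hξ.1) ?_
  exact (eventually_all_finset _).2 fun i hi =>
    (isOpen_lt (by fun_prop) continuous_const).mem_nhds (hξ.2 i hi)

variable {X} {R : ℕ} {ξ : J → ℂ}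

theorem x_mem (hR : X.R0 ≤ R) (hξ : ξ ∈ Dom X.I X.c X.r' R) : X.x R ξ ∈ ball 0 X.r :=
  mem_ball_zero_iff.2 ((X.ext.xb R hR ξ hξ).trans_lt (by linarith [X.box.r_pos]))

theorem x_hol (hR : X.R0 ≤ R) : DifferentiableOn ℂ (X.x R) (Dom X.I X.c X.r' R) :=
  (X.ext.yhol.mono fun _ h => mem_ball_zero_iff.2 h.1).prodMk
    ((X.ext.chol.mono fun _ h => mem_ball_zero_iff.2 h.1).prodMk (X.ext.ohol R hR))

theorem x_step (hR : X.R0 ≤ R) (hξ : ξ ∈ Dom X.I X.c X.r' (R + 1)) :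
    ‖X.x (R + 1) ξ - X.x R ξ‖ ≤ X.C * Real.exp (-(X.κ' * R)) := by
  simpa [x] using X.ext.ostep R hR ξ hξ

theorem x_zero (hR : X.R0 ≤ R) : ‖X.x R 0‖ ≤ X.C * Real.exp (-(X.κ' * R)) := by
  simpa [x, X.ext.y0, X.ext.c00] using X.ext.ozero R hR

/-- the graph on the ends -/
theorem U_pt (hR : X.R0 ≤ R) (hξ : ξ ∈ Dom X.I X.c X.r' R) (e : En D) {q : R2}
    (hq : X.zm + 4 ≤ q.1) : X.U R ξ (pt e q) = X.G.s e * X.v R ξ e q := by
  have h0 : X.G.z0 < q.1 := by linarith [X.hz]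
  unfold U
  rw [X.G.σ_pt e q h0]
  split_ifs with h
  · have h1 : q.1 ∈ Icc (X.zm + 4) (TT X.zm X.n) := ⟨hq, h.le.trans X.T_ge⟩
    rw [X.box.uend _ (x_mem hR hξ) e q h1, X.ext.vcore R hR ξ hξ e q h1, x]
  · simp [Iv.lift_pt X.G _ e _ q h0 (X.ext.vper R ξ _ _)]

theorem U_pt_ev (hR : X.R0 ≤ R) (hξ : ξ ∈ Dom X.I X.c X.r' R) (e : En D) {q : R2}
    (hq : X.zm + 4 < q.1) :
    (fun z => X.U R ξ (pt e z)) =ᶠ[𝓝 q] fun z => X.G.s e * X.v R ξ e z :=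
  (ev_lt hq).mono fun _ hy => U_pt hR hξ e hy.le

/-- the graph on the core -/
theorem U_core (hR : X.R0 ≤ R) (hξ : ξ ∈ Dom X.I X.c X.r' R) {p : E3} (hp : w p = 0)
    (h : X.G.σ p ≤ TT X.zm X.n) : X.U R ξ p = X.u (X.x R ξ) p := by
  by_cases h1 : X.G.σ p < X.zm + 5
  · exact if_pos h1
  · obtain ⟨e, q, h2, rfl⟩ := X.G.cover p hp (by linarith [X.hz])
    rw [X.G.σ_pt e q h2] at h h1
    have h3 : q.1 ∈ Icc (X.zm + 4) (TT X.zm X.n) := ⟨by linarith, h⟩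
    rw [U_pt hR hξ e h3.1, X.box.uend _ (x_mem hR hξ) e q h3, X.ext.vcore R hR ξ hξ e q h3, x]

/-- the graph is of class `C²` -/
theorem U_c2 (hR : X.R0 ≤ R) (hξ : ξ ∈ Dom X.I X.c X.r' R) (Q : Patch (SS w)) {y : R2}
    (hy : y ∈ Q.O) (h : X.G.σ (Q.φ y) < R / 2) : ContDiffAt ℝ 2 (fun z => X.U R ξ (Q.φ z)) y := by
  by_cases h1 : X.G.σ (Q.φ y) < TT X.zm X.n
  · refine (X.box.c2 _ (x_mem hR hξ) Q y hy h1).congr_of_eventuallyEq ?_
    filter_upwards [Iv.ev_zero Q hy, (X.G.σ_sm.continuous.continuousAt.comp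
      (Q.cdAt hy).continuousAt).eventually (gt_mem_nhds h1)] with z z1 z2 using
      U_core hR hξ z1 z2.le
  · obtain ⟨e, q, h2, h3⟩ := X.G.cover _ (Q.maps y hy).1 (by linarith [X.hz, X.T_ge])
    rw [h3, X.G.σ_pt e q h2] at h h1
    have h4 : X.zm + 4 < q.1 := by linarith [X.T_ge]
    have h5 : q ∈ (X.G.ep e q.2).O := by
      rw [X.G.ep_O]
      exact ⟨h2, by linarith [Real.pi_pos], by linarith [Real.pi_pos]⟩
    refine Iv.cd_trans h5 hy (by rw [X.G.ep_φ, h3]) Iv.two_le_inf ?_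
    rw [X.G.ep_φ]
    exact (contDiffAt_const.mul (X.ext.vc2 R hR ξ hξ e q ⟨h4, h⟩)).congr_of_eventuallyEq
      (U_pt_ev hR hξ e h4)

/-- the data are real at real points -/
theorem real {x : J → ℝ} (hR : X.R0 ≤ R) (hx : re2c x ∈ Dom X.I X.c X.r' R) :
    star (X.cf (re2c x)) = X.cf (re2c x) ∧ star (X.lam R (re2c x)) = X.lam R (re2c x) ∧
      ∀ p, w p = 0 → X.G.σ p < R / 2 → (X.U R (re2c x) p).im = 0 := by
  have h1 : cjP (X.x R (re2c x)) = X.x R (re2c x) := X.ext.real R hR x hx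
  obtain ⟨-, h2, -, h3⟩ := X.box.cj _ (x_mem hR hx)
  rw [h1] at h2 h3
  refine ⟨congrArg (fun z : Par D J => z.2.1) h1, h2.symm, fun p hp h => ?_⟩
  by_cases h4 : X.G.σ p < TT X.zm X.n
  · rw [U_core hR hx hp h4.le]
    exact Complex.conj_eq_iff_im.1 (h3 p hp h4).symm
  · obtain ⟨e, q, h5, rfl⟩ := X.G.cover p hp (by linarith [X.hz, X.T_ge])
    rw [X.G.σ_pt e q h5] at h h4
    have h6 : X.zm + 4 < q.1 := by linarith [X.T_ge]
    simp [U_pt hR hx e h6.le, X.ext.vreal R hR x hx e q ⟨h6, h⟩]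

end Dt

end Vale.Agent.P218N.Ra
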