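import Vale.Agent.P218N.Core.Out
import Vale.Agent.P218N.D6.Defs

/-! The assembly of the input `Red` of block D6: definitions and statements. -/

open Set Filter Topology Metric MeasureTheory
open scoped RealInnerProductSpace ContDiff

noncomputable section

namespace Vale.Agent.P218N.Ra

open Vale.Agent.P218.H313 Vale.Agent.P218N.H Vale.Agent.P218N.G Vale.Agent.P218N.End
  Vale.Agent.P218N.Core Vale.Agent.P218F Vale.Agent.P218GA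

set_option maxSynthPendingDepth 3

variable {w : E3 → ℝ} {D : EndData w} {J κ : Type} [Fintype J] [DecidableEq J]

/-- the weight `Ω` on an end -/
def OmE : En D → ℝ → ℝ
  | .inl _, ζ => ζ ^ 2
  | .inr _, ζ => ζ

/-- weighted bounds for a jet in the coordinates `(ζ, θ)` -/
structure WJ (e : En D) (ζ : ℝ) (m : J2 ℂ) (B : ℝ) : Prop where
  b0 : ‖m 0‖ ≤ B
  b1 : OmE e ζ * ‖m 1‖ ≤ B
  b2 : ‖m 2‖ ≤ B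
  b3 : OmE e ζ * ‖m 3‖ ≤ B
  b4 : √(OmE e ζ) * ‖m 4‖ ≤ B
  b5 : ‖m 5‖ ≤ B

/-- The truncated solutions: core parameters `(yf ξ, cf ξ, om R ξ)`, the deviation `v R ξ e` of the
height on the end `e` from the height of the shrinker for `zm + 4 < ζ < R / 2`, the area `F R ξ`. -/
structure Ext (zm : ℝ) (n : ℕ) (r : ℝ) (jc : Par D J → En D → EJ) (lm : Par D J → J → ℂ)
    (Fc : Par D J → ℂ) (I : Finset J) (c r' κ' C : ℝ) (R0 : ℕ) (yf : (J → ℂ) → J → ℂ)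
    (cf : (J → ℂ) → Fin D.b → ℂ × ℂ) (om : ℕ → (J → ℂ) → En D → WD)
    (v : ℕ → (J → ℂ) → En D → R2 → ℂ) (F : ℕ → (J → ℂ) → ℂ) : Prop where
  c0 : 0 < c
  r0 : 0 < r'
  κ0 : 0 < κ'
  C0 : 0 ≤ C
  R01 : 8 * TT zm n ≤ R0
  yhol : DifferentiableOn ℂ yf (ball 0 r')
  chol : DifferentiableOn ℂ cf (ball 0 r')
  y0 : yf 0 = 0
  c00 : cf 0 = 0
  yinj : ∀ b : J → ℝ, (∀ k, (fderiv ℂ yf 0 (re2c b) k).re = 0) → b = 0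
  ohol : ∀ R, R0 ≤ R → DifferentiableOn ℂ (om R) (Dom I c r' R)
  xb : ∀ R, R0 ≤ R → ∀ ξ ∈ Dom I c r' R, ‖(yf ξ, cf ξ, om R ξ)‖ ≤ r / 4
  ostep : ∀ R, R0 ≤ R → ∀ ξ ∈ Dom I c r' (R + 1),
    ‖om (R + 1) ξ - om R ξ‖ ≤ C * Real.exp (-(κ' * R))
  ozero : ∀ R, R0 ≤ R → ‖om R 0‖ ≤ C * Real.exp (-(κ' * R))
  real : ∀ R, R0 ≤ R → ∀ x, re2c x ∈ Dom I c r' R →
    cjP (yf (re2c x), cf (re2c x), om R (re2c x)) = (yf (re2c x), cf (re2c x), om R (re2c x))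
  vcore : ∀ R, R0 ≤ R → ∀ ξ ∈ Dom I c r' R, ∀ e (q : R2), q.1 ∈ Icc (zm + 4) (TT zm n) →
    v R ξ e q = ev (jc (yf ξ, cf ξ, om R ξ) e).y (tt zm q.1) q.2 - yS e q
  vper : ∀ R ξ e ζ θ, v R ξ e (ζ, θ + 2 * Real.pi) = v R ξ e (ζ, θ)
  vc2 : ∀ R, R0 ≤ R → ∀ ξ ∈ Dom I c r' R, ∀ e (q : R2), q.1 ∈ Ioo (zm + 4) (R / 2) →
    ContDiffAt ℝ 2 (v R ξ e) q
  vhol : ∀ R, R0 ≤ R → ∀ e (q : R2), q.1 ∈ Ioo (zm + 4) (R / 2) →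
    DifferentiableOn ℂ (fun ξ => jet2 (v R ξ e) q) (Dom I c r' R)
  vb : ∀ R, R0 ≤ R → ∀ ξ ∈ Dom I c r' R, ∀ e (q : R2), q.1 ∈ Ioo (zm + 4) (R / 2) →
    WJ e q.1 (jet2 (v R ξ e) q) C
  vstep : ∀ R, R0 ≤ R → ∀ ξ ∈ Dom I c r' (R + 1), ∀ e (q : R2), q.1 ∈ Ioo (zm + 4) (R / 2) →
    WJ e q.1 (jet2 (v (R + 1) ξ e) q - jet2 (v R ξ e) q) (C * Real.exp (-(κ' * R)))
  vzero : ∀ R, R0 ≤ R → ∀ e (q : R2), q.1 ∈ Ioo (zm + 4) (R / 2) →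
    WJ e q.1 (jet2 (v R 0 e) q) (C * Real.exp (-(κ' * R)))
  vreal : ∀ R, R0 ≤ R → ∀ x, re2c x ∈ Dom I c r' R → ∀ e (q : R2), q.1 ∈ Ioo (zm + 4) (R / 2) →
    (v R (re2c x) e q).im = 0
  veq : ∀ R, R0 ≤ R → ∀ ξ ∈ Dom I c r' R, ∀ e (q : R2), q.1 ∈ Ioo (zm + 4) (R / 2) →
    EP e q (jy e q + jet2 (v R ξ e) q) = 0
  area : ∀ R, R0 ≤ R → ∀ x, re2c x ∈ Dom I c r' R →
    ‖Fc (yf (re2c x), cf (re2c x), om R (re2c x)) + (∑ e, ∫ ζ in TT zm n..R / 8,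
      ∫ θ in (0 : ℝ)..2 * Real.pi, lagE e (ζ, θ) (jy e (ζ, θ) + jet2 (v R (re2c x) e) (ζ, θ))) -
      F R (re2c x)‖ ≤ C * Real.exp (-(κ' * R))
  dF : ∀ R, R0 ≤ R → ∀ x, re2c x ∈ Dom I (c / 2) (r' / 2) R → ‖fderiv ℂ (F R) (re2c x)‖ ≤
    C * (‖lm (yf (re2c x), cf (re2c x), om R (re2c x))‖ + Real.exp (-(κ' * R)))
  concl : Concl I c R0 F

/-- all data -/
structure Dt (D : EndData w) (J κ : Type) [Fintype J] [DecidableEq J] where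
  G : Geo D
  zm : ℝ
  ψ : J → E3 → ℝ
  P : κ → Patch (SS w)
  O : κ → Set R2
  jS : En D → EJ
  n : ℕ
  r : ℝ
  Cc : ℝ
  u : Par D J → E3 → ℂ
  jc : Par D J → En D → EJ
  lm : Par D J → J → ℂ
  Fc : Par D J → ℂ
  I : Finset J
  c : ℝ
  r' : ℝ
  κ' : ℝ
  C : ℝ
  R0 : ℕ
  yf : (J → ℂ) → J → ℂ
  cf : (J → ℂ) → Fin D.b → ℂ × ℂ
  om : ℕ → (J → ℂ) → En D → WD
  v : ℕ → (J → ℂ) → En D → R2 → ℂ
  F : ℕ → (J → ℂ) → ℂ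
  hz : G.z0 + 1 ≤ zm
  hz' : 1000 ≤ zm
  hn : 4 ≤ n
  psi : PsiF G zm ψ
  ch : Charts G zm P O
  box : CoreBox G zm ψ P O jS n r Cc u jc lm Fc
  ext : Ext zm n r jc lm Fc I c r' κ' C R0 yf cf om v F

/-- the real part of a matrix as a linear map -/
def mR (A : Matrix (Fin 3) (Fin 3) ℂ) : E3 →L[ℝ] E3 :=
  ∑ i, ∑ k, (A i k).re • (EuclideanSpace.proj k).smulRight (EuclideanSpace.single i (1 : ℝ))

namespace Dt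
variable (X : Dt D J κ)

/-- the core parameters -/
def x (R : ℕ) (ξ : J → ℂ) : Par D J := (X.yf ξ, X.cf ξ, X.om R ξ)
/-- the normal graph -/
def U (R : ℕ) (ξ : J → ℂ) (p : E3) : ℂ :=
  if X.G.σ p < X.zm + 5 then X.u (X.x R ξ) p else ∑ e, X.G.s e * X.G.lift e (X.v R ξ e) p
/-- the multipliers -/
def lam (R : ℕ) (ξ : J → ℂ) : J → ℂ := X.lm (X.x R ξ)
/-- the charts -/
def φ : κ ⊕ En D → R2 → E3 := Sum.elim (fun k => (X.P k).φ) pt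
/-- their domains -/
def V : κ ⊕ En D → Set R2 := Sum.elim X.O fun _ => {q | X.zm + 4 < q.1}
/-- the beginning of the ends -/
def s1 : ℝ := √(X.zm + 4)
/-- the rotations -/
def Gr (b : Fin D.b) (z : ℝ × (J → ℝ)) : E3 →L[ℝ] E3 :=
  mR (RQ (D.Q b) ((z.1 : ℂ) • X.cf (re2c z.2) b) - 1)
/-- the area density -/
def lag (R : ℕ) (x : J → ℝ) (p : E3) : ℝ :=
  (Core.lam (X.G.aG X.zm (X.cf (re2c x)) (X.U R (re2c x)) p)).re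
/-- all charts -/
abbrev Φ : D6.En D ⊕ κ ⊕ En D → R2 → E3 := D6.chφ D X.φ
/-- their domains -/
abbrev Ω : D6.En D ⊕ κ ⊕ En D → Set R2 := D6.chO D X.V X.s1

/-- the static fields -/
structure GeoF : Prop where
  geo : D6.Geo D X.G.nn X.φ X.V X.s1
  σe : ∀ e (v : R2), X.s1 < v.1 → X.G.σ (D6.endPt D e v) = D6.endSg D e v.1
  χs : ∀ j, ContDiff ℝ ∞ (X.G.chi X.zm j)
  χe : ∀ j e (v : R2), X.s1 < v.1 →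
    X.G.chi X.zm j (D6.endPt D e v) = if e = .inr j then 1 else 0
  Gs : ∀ j t x, ‖x‖ < X.r' → ContDiffAt ℝ 2 (X.Gr j) (t, x)
  G0 : ∀ j t, X.Gr j (t, 0) = 0

/-- the jets of the normal graphs -/
structure JetsF (C : ℝ) : Prop where
  hol : ∀ R, X.R0 ≤ R → ∀ k, ∀ v ∈ X.Ω k, X.G.σ (X.Φ k v) < R / 2 →
    D6.HolJ (fun ξ v => X.U R ξ (X.Φ k v)) (Dom X.I X.c X.r' R) v
  jb : ∀ R, X.R0 ≤ R → ∀ ξ ∈ Dom X.I X.c X.r' R, ∀ k, ∀ v ∈ X.Ω k, X.G.σ (X.Φ k v) < R / 2 →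
    D6.JB (fun v => X.U R ξ (X.Φ k v)) v C C C
  jrad : ∀ R, X.R0 ≤ R → ∀ ξ ∈ Dom X.I X.c X.r' R, ∀ e (v : R2), X.s1 < v.1 →
    D6.endSg D e v.1 < R / 2 →
    D6.endSc D e v * ‖fderiv ℝ (fun v => X.U R ξ (D6.endPt D e v)) v (D6.endXi D e v)‖ ≤ C
  step : ∀ R, X.R0 ≤ R → ∀ ξ ∈ Dom X.I X.c X.r' (R + 1), ∀ k, ∀ v ∈ X.Ω k,
    X.G.σ (X.Φ k v) < R / 2 → D6.JB (fun v => X.U (R + 1) ξ (X.Φ k v) - X.U R ξ (X.Φ k v)) v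
      (C * Real.exp (-(X.κ' * R))) (C * Real.exp (-(X.κ' * R))) (C * Real.exp (-(X.κ' * R)))
  zero : ∀ R, X.R0 ≤ R → ∀ k, ∀ v ∈ X.Ω k, X.G.σ (X.Φ k v) < R / 2 →
    D6.JB (fun v => X.U R 0 (X.Φ k v)) v
      (C * Real.exp (-(X.κ' * R))) (C * Real.exp (-(X.κ' * R))) (C * Real.exp (-(X.κ' * R)))

/-- the deformed surface -/
abbrev Y (R : ℕ) (x : J → ℝ) : E3 → E3 :=
  D6.defX X.G.nn (D6.rotF X.Gr (X.G.chi X.zm) x) (X.U R (re2c x))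

/-- the equation and the area density -/
structure EqF (C : ℝ) : Prop where
  eq : ∀ R, X.R0 ≤ R → ∀ x, re2c x ∈ Dom X.I X.c X.r' R → ∀ k, ∀ v ∈ X.Ω k,
    X.G.σ (X.Φ k v) < R / 2 →
    |D6.Mc (fun v => X.Y R x (X.Φ k v)) v - (∑ j, D6.reL (X.lam R (re2c x)) j * X.ψ j (X.Φ k v)) *
      D6.dS (X.Φ k) (X.G.nn (X.Φ k v)) v|
      ≤ C * ‖D6.reL (X.lam R (re2c x))‖ * (1 + ‖X.Φ k v‖) ^ 0 * (|(X.U R (re2c x) (X.Φ k v)).re| +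
        ‖fderiv ℝ (fun v => (X.U R (re2c x) (X.Φ k v)).re) v‖ + ‖x‖)
  lagc : ∀ R, X.R0 ≤ R → ∀ x, re2c x ∈ Dom X.I X.c X.r' R → ∀ k, ∀ v ∈ X.Ω k,
    X.G.σ (X.Φ k v) < R / 2 → X.lag R x (X.Φ k v) * D6.ar (X.Φ k) v =
      rho (X.Y R x (X.Φ k v)) * D6.ar (fun v => X.Y R x (X.Φ k v)) v

/-- the area -/
def AreaF : Prop := ∀ R, X.R0 ≤ R → ∀ x, re2c x ∈ Dom X.I X.c X.r' R →
  |(cH 2 : ℝ)⁻¹ * ∫ p in {p | X.G.σ p < R / 8}, X.lag R x p ∂(sig 2 w) - (X.F R (re2c x)).re|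
    ≤ X.C * Real.exp (-(X.κ' * R))

/-- the multipliers and the injectivity -/
structure LamF (C : ℝ) : Prop where
  lhol : ∀ R, X.R0 ≤ R → DifferentiableOn ℂ (X.lam R) (Dom X.I X.c X.r' R)
  lb : ∀ ξ ∈ Dom X.I X.c X.r' X.R0, ‖X.lam X.R0 ξ‖ ≤ C
  lstep : ∀ R, X.R0 ≤ R → ∀ ξ ∈ Dom X.I X.c X.r' (R + 1),
    ‖X.lam (R + 1) ξ - X.lam R ξ‖ ≤ C * Real.exp (-(X.κ' * R))
  lzero : ∀ R, X.R0 ≤ R → ‖X.lam R 0‖ ≤ C * Real.exp (-(X.κ' * R))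
  dF : ∀ R, X.R0 ≤ R → ∀ x, re2c x ∈ Dom X.I (X.c / 2) (X.r' / 2) R →
    ‖fderiv ℂ (X.F R) (re2c x)‖ ≤ C * (‖D6.reL (X.lam R (re2c x))‖ + Real.exp (-(X.κ' * R)))
  inj : ∀ b : J → ℝ, (∀ p, w p = 0 → Tendsto (fun R =>
    (fderiv ℂ (fun ξ => X.U R ξ p) 0 (re2c b)).re * ⟪X.G.nn p, grad w p⟫ +
      ⟪fderiv ℝ (fun x => D6.rotF X.Gr (X.G.chi X.zm) x p) 0 b p, grad w p⟫) atTop (𝓝 0)) → b = 0

/-- the linear problem -/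
def SolvF : Prop := ∀ (W : E3 → ℝ) (c' K : ℝ), Tube0 W c' K → (∀ p, W p = 0 ↔ w p = 0) →
  (∀ p, w p = 0 → grad W p = nuW w p) → ∀ f : E3 → ℝ, ContDiff ℝ (⊤ : ℕ∞) f →
  HasCompactSupport f → ∃ (g : E3 → ℝ) (μ : J → ℝ) (C' : ℝ) (q' : ℕ),
    (∀ k, ∀ v ∈ X.Ω k, D6.JB (fun v => g (X.Φ k v)) v (C' * (1 + ‖X.Φ k v‖) ^ q')
      (C' * (1 + ‖X.Φ k v‖) ^ q') (C' * (1 + ‖X.Φ k v‖) ^ q')) ∧
    (∀ ζ : E3 → ℝ, ContDiff ℝ 2 ζ → (∀ p, w p = 0 → ζ p = g p) → ∀ p, w p = 0 →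
      jac W ζ p = f p + ∑ j, μ j * (X.ψ j p * ⟪X.G.nn p, nuW w p⟫)) ∧
    ∀ j, ∫ p, g p * (X.ψ j p * ⟪X.G.nn p, nuW w p⟫) * rho p ∂(sig 2 w) = 0

end Dt

end Vale.Agent.P218N.Ra
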