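import Vale.Agent.P218N.Ra.Bas
import Vale.Agent.P218N.Core.VarM
import Vale.Agent.P218N.Core.EndF

/-! The assembly of `Red`: the equation and the area density in the charts. -/

open Set Filter Topology Metric MeasureTheory
open scoped RealInnerProductSpace ContDiff Matrix

noncomputable section

namespace Vale.Agent.P218N.Ra

open Vale.Agent.P218.H313 Vale.Agent.P218N.H Vale.Agent.P218N.G Vale.Agent.P218N.End
  Vale.Agent.P218N.Core Vale.Agent.P218F Vale.Agent.P218GA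

set_option maxSynthPendingDepth 3
set_option linter.unusedSectionVars false

variable {w : E3 → ℝ} {D : EndData w} {J κ : Type} [Fintype J] [DecidableEq J]

namespace EqP

theorem cx_mR {A : Matrix (Fin 3) (Fin 3) ℂ} (h : ∀ v : C3, A *ᵥ star v = star (A *ᵥ v)) (y : E3) :
    cx (mR A y) = A *ᵥ cx y := by
  have h1 : ∀ i k, ((A i k).re : ℂ) = A i k := fun i k => by
    have h2 := congrFun (h (Pi.single k 1)) i
    have h3 : star (Pi.single k 1 : C3) = Pi.single k 1 := by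
      ext j; by_cases hj : j = k <;> simp [hj]
    rw [h3] at h2
    simp only [Matrix.mulVec_single_one, Matrix.col_apply, Pi.star_apply] at h2
    exact Complex.conj_eq_iff_re.1 h2.symm
  ext i
  fin_cases i <;>
    simp [cx, mR, Matrix.mulVec, dotProduct, Fin.sum_univ_three, h1]

theorem cx_add (a b : E3) : cx (a + b) = cx a + cx b := map_add Iv.cxL a b

theorem cx_Y (X : Dt D J κ) {R : ℕ} {x : J → ℝ} (h : star (X.cf (re2c x)) = X.cf (re2c x)) {p : E3}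
    (hp : (X.U R (re2c x) p).im = 0) :
    cx (X.Y R x p) = Gm (X.G.bW X.zm p + (X.cf (re2c x), 0, 0, 0, X.U R (re2c x) p)) := by
  have h1 : cx (p + (X.U R (re2c x) p).re • X.G.nn p) = cx p + X.U R (re2c x) p • cx (X.G.nn p) := by
    ext i
    apply Complex.ext <;> simp [cx, hp]
  simp only [D6.defX, D6.rotF, add_apply, ContinuousLinearMap.id_apply,
    sum_apply, cx_add, Gm, Geo.bW, Prod.mk_add_mk, add_zero, zero_add]
  rw [← cx_add, ← Iv.cxL_apply (∑ _, _), map_sum, h1]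
  congr 1
  refine Finset.sum_congr rfl fun b _ => ?_
  rw [Iv.cxL_apply, Dt.Gr, cx_mR, h1, Matrix.sub_mulVec, Matrix.one_mulVec]
  intro v
  have h2 : star ((X.G.chi X.zm b p : ℂ) • X.cf (re2c x) b) =
      (X.G.chi X.zm b p : ℂ) • X.cf (re2c x) b := by
    rw [star_smul, show star (X.cf (re2c x) b) = X.cf (re2c x) b from congrFun h b]
    simp
  rw [Matrix.sub_mulVec, Matrix.sub_mulVec, Matrix.one_mulVec, Matrix.one_mulVec, star_sub,
    ← JA.RQ_cj, h2]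

theorem cd_of_cx {f : R2 → E3} {v : R2} (h : ContDiffAt ℝ 2 (fun z => cx (f z)) v) :
    ContDiffAt ℝ 2 f v :=
  contDiffAt_euclidean.2 fun i => Complex.reCLM.contDiff.contDiffAt.comp v (contDiffAt_pi.1 h i)

/-- the jets in an arbitrary parametrisation -/
theorem exists_rep (G : Geo D) {φ : R2 → E3} {v : R2} (h1 : ContDiffAt ℝ 2 φ v)
    (h2 : Function.Injective (fderiv ℝ φ v)) (h3 : ∀ᶠ z in 𝓝 v, w (φ z) = 0) :
    ∃ s : J2 R2, Iv.jd s ≠ 0 ∧ ∀ (V : Type) [NormedAddCommGroup V] [NormedSpace ℝ V] (u : E3 → V),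
      ContDiffAt ℝ 2 (fun z => u ((G.pa (φ v)).φ z)) ((G.pa (φ v)).ι (φ v)) →
        ContDiffAt ℝ 2 (fun z => u (φ z)) v ∧ jet2 (fun z => u (φ z)) v = Iv.rep s (G.jG u (φ v)) := by
  obtain ⟨h4, h5⟩ := (G.pa (φ v)).comp_ι Iv.two_le_inf h1 h3 (G.pa_mem _ h3.self_of_nhds)
  have key : ∀ (V : Type) [NormedAddCommGroup V] [NormedSpace ℝ V] (u : E3 → V),
      ContDiffAt ℝ 2 (fun z => u ((G.pa (φ v)).φ z)) ((G.pa (φ v)).ι (φ v)) →
        ContDiffAt ℝ 2 (fun z => u (φ z)) v ∧ jet2 (fun z => u (φ z)) v =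
          Iv.rep (jet2 (fun z => (G.pa (φ v)).ι (φ z)) v) (G.jG u (φ v)) := by
    intro V _ _ u hu
    have h6 : (fun z => u (φ z)) =ᶠ[𝓝 v] fun z => u ((G.pa (φ v)).φ ((G.pa (φ v)).ι (φ z))) :=
      h5.mono fun z hz => by simp only [hz.2]
    exact ⟨(ContDiffAt.comp (g := fun z => u ((G.pa (φ v)).φ z)) v hu h4).congr_of_eventuallyEq h6,
      (jet2_congr h6).trans (Iv.jet2_comp h4 hu)⟩
  refine ⟨_, fun h0 => ?_, key⟩
  have h7 := (key C3 cx (Iv.contDiff_cx.contDiffAt.comp _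
    ((G.pa _).cdAt2 (Iv.pa_spec G h3.self_of_nhds).1))).2
  have h8 := Var.dg_jS h1
  rw [jS, h7, Iv.dg_rep, h0] at h8
  have h9 := Var.ar_pos h2
  exact (pow_pos h9 2).ne' (Complex.ofReal_eq_zero.1 (h8.symm.trans (by simp)))

theorem Mp_jS {f : R2 → E3} {v : R2} (h : ContDiffAt ℝ 2 f v) : Mp (jS f v) = D6.Mc f v := by
  rw [Iv.jS_eq h, Iv.Mp_cx, shrP_eq, real_inner_comm]
  rfl

theorem den_jS {f : R2 → E3} {v : R2} (h : ContDiffAt ℝ 2 f v) (n : E3) :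
    det3 (jS f v 1) (jS f v 2) (cx n) * dg (jS f v) = D6.dS f n v := by
  rw [Var.dg_jS h, Iv.jS_eq h, Iv.det3_cx, real_inner_comm, D6.dS, Complex.ofReal_mul]
  rfl

theorem lag_jS {f g : R2 → E3} {v : R2} (hf : ContDiffAt ℝ 2 f v) (hg : ContDiffAt ℝ 2 g v)
    (h : Function.Injective (fderiv ℝ f v)) :
    (Core.lag (jS f v) (jS g v)).re * D6.ar f v = rho (g v) * D6.ar g v := by
  have h1 := Var.ar_pos h
  have h2 : 0 ≤ Var.ar g v := Real.sqrt_nonneg _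
  have h3 : eG (jS g v) = rho (g v) := by
    rw [eG, show jS g v 0 = cx (g v) from rfl, Iv.cx_dot, rho, real_inner_self_eq_norm_sq]
    push_cast
    rfl
  rw [Core.lag, Core.sq, Var.dg_jS hf, Var.dg_jS hg, ← Complex.ofReal_div, ← div_pow,
    Complex.sqrt_of_nonneg (Complex.zero_le_real.2 (sq_nonneg _)), Complex.ofReal_re,
    Real.sqrt_sq (div_nonneg h2 h1.le), h3, ← Complex.ofReal_mul, Complex.ofReal_re, mul_assoc]
  exact congrArg _ (div_mul_cancel₀ _ h1.ne')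

variable {X : Dt D J κ} {R : ℕ} {x : J → ℝ}

/-- the operators in an arbitrary parametrisation -/
theorem key (hR : X.R0 ≤ R) (hx : re2c x ∈ Dom X.I X.c X.r' R) {φ : R2 → E3} {v : R2}
    (h1 : ContDiffAt ℝ 2 φ v) (h2 : Function.Injective (fderiv ℝ φ v))
    (h3 : ∀ᶠ z in 𝓝 v, w (φ z) = 0) (h4 : X.G.σ (φ v) < R / 2) :
    (D6.Mc (fun z => X.Y R x (φ z)) v : ℂ) =
      Mh (X.G.aG X.zm (X.cf (re2c x)) (X.U R (re2c x)) (φ v)) * D6.dS φ (X.G.nn (φ v)) v ∧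
    X.lag R x (φ v) * D6.ar φ v =
      rho (X.Y R x (φ v)) * D6.ar (fun z => X.Y R x (φ z)) v := by
  have hJ := jetStmt w D
  obtain ⟨s, hs, hr⟩ := exists_rep X.G h1 h2 h3
  obtain ⟨p1, p2⟩ := Iv.pa_spec X.G h3.self_of_nhds
  obtain ⟨r1, -, r3⟩ := Dt.real hR hx
  have hU := Dt.U_c2 hR hx _ p1 (by rwa [p2])
  set Wf : E3 → WW D := fun p => X.G.bW X.zm p + (X.cf (re2c x), 0, 0, 0, X.U R (re2c x) p)
  obtain ⟨a1, a2⟩ := hr _ Wf ((Iv.cd_bW2 X.G X.zm _ p1).add (contDiffAt_const.prodMk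
    (contDiffAt_const.prodMk (contDiffAt_const.prodMk (contDiffAt_const.prodMk hU)))))
  have a3 : X.G.jG Wf (φ v) = X.G.aG X.zm (X.cf (re2c x)) (X.U R (re2c x)) (φ v) :=
    (Iv.jet_eq X.G X.zm _ p1 _ hU).symm
  rw [a3] at a2
  have e1 : (fun z => cx (X.Y R x (φ z))) =ᶠ[𝓝 v] fun z => Gm (Wf (φ z)) := by
    filter_upwards [h3, (X.G.σ_sm.continuous.continuousAt.comp h1.continuousAt).eventually
      (gt_mem_nhds h4)] with z z1 z2 using cx_Y X r1 (r3 _ z1 z2)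
  have hY : ContDiffAt ℝ 2 (fun z => X.Y R x (φ z)) v := cd_of_cx
    ((((hJ.smG.of_le Iv.two_le_inf).restrict_scalars ℝ).contDiffAt.comp v
      a1).congr_of_eventuallyEq e1)
  have e2 : xJ (jet2 (fun z => Wf (φ z)) v) = jS (fun z => X.Y R x (φ z)) v :=
    (hJ.chain _ v a1).trans (jet2_congr e1).symm
  have e3 : pJ (jet2 (fun z => Wf (φ z)) v) = jS φ v := by
    refine (jet2_clm ((ContinuousLinearMap.fst ℝ _ _).comp ((ContinuousLinearMap.snd ℝ _ _).comp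
      (ContinuousLinearMap.snd ℝ _ _))) a1).symm.trans (congrArg (jet2 · v) (funext fun z => ?_))
    exact add_zero _
  have e4 : nV (jet2 (fun z => Wf (φ z)) v) = cx (X.G.nn (φ v)) := add_zero _
  have e5 : (D6.dS φ (X.G.nn (φ v)) v : ℂ) ≠ 0 := by
    have h5 := Iv.det_ne X.G _ p1
    rw [p2] at h5
    rw [← den_jS h1, jS, (hr C3 cx (Iv.contDiff_cx.contDiffAt.comp _ ((X.G.pa _).cdAt2 p1))).2,
      Iv.det3_rep, Iv.dg_rep]
    exact mul_ne_zero (mul_ne_zero (Complex.ofReal_ne_zero.2 hs) h5)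
      (mul_ne_zero (pow_ne_zero 2 (Complex.ofReal_ne_zero.2 hs)) (Iv.dg_ne _ p1))
  constructor
  · rw [← Iv.Mh_rep hJ hs, ← a2, Mh, e2, e3, e4, den_jS h1, Mp_jS hY, div_mul_cancel₀ _ e5]
  · rw [Dt.lag, ← Iv.lam_rep hJ hs, ← a2, Core.lam, e2, e3, lag_jS h1 hY h2]

theorem pt_cd (G : Geo D) (e : En D) {q : R2} (h : G.z0 < q.1) : q ∈ (G.ep e q.2).O := by
  rw [G.ep_O]
  exact ⟨h, by linarith [Real.pi_pos], by linarith [Real.pi_pos]⟩

theorem chart (hG : X.GeoF) (k) {v : R2} (hv : v ∈ X.Ω k) :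
    ContDiffAt ℝ 2 (X.Φ k) v ∧ ∀ᶠ z in 𝓝 v, w (X.Φ k z) = 0 := by
  rcases k with e | k
  · have h1 := pt_cd X.G e (q := co e v) (by linarith [X.lt_co e hv, X.hz])
    have h2 := (X.G.ep e (co e v).2).cdAt2 h1
    have h3 := Iv.ev_zero _ h1
    rw [X.G.ep_φ] at h2 h3
    have h4 := endPt_ev e (X.s1_pos.trans hv)
    refine ⟨(h2.comp v ((co_smooth e).of_le Iv.two_le_inf).contDiffAt).congr_of_eventuallyEq h4, ?_⟩
    filter_upwards [h4, (co_smooth e).continuous.continuousAt.eventually h3] with z z1 z2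
    exact (congrArg w z1).trans z2
  · have h1 := (hG.geo.op k).mem_nhds hv
    exact ⟨(hG.geo.sm k).contDiffAt h1, mem_of_superset h1 (hG.geo.mem k)⟩

/-- the equation on the ends -/
theorem Mh_pt (hR : X.R0 ≤ R) {ξ : J → ℂ} (hξ : ξ ∈ Dom X.I X.c X.r' R) (e : En D) {q : R2}
    (h1 : X.zm + 4 < q.1) (h2 : X.G.σ (pt e q) < R / 2) :
    Mh (X.G.aG X.zm (X.cf ξ) (X.U R ξ) (pt e q)) = 0 := by
  have h0 : X.G.z0 < q.1 := by linarith [X.hz]
  have h3 := pt_cd X.G e h0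
  have h4 := ((invStmt' w D X.G X.zm).inv _ q h3 (X.cf ξ) (X.U R ξ)
    (Dt.U_c2 hR hξ _ h3 (by rwa [X.G.ep_φ])) _ rfl).2.1
  rw [X.G.σ_pt e q h0] at h2
  obtain ⟨r, r1, r2⟩ := (endFStmt w D X.G X.zm).pos e q h0
  have h5 := (endFStmt w D X.G X.zm).eq e q (X.cf ξ) (jet2 (X.v R ξ e) q) h0 (.inr (by linarith))
  rw [X.ext.veq R hR ξ hξ e q ⟨h1, h2⟩, mul_zero, r2] at h5
  rw [X.G.ep_φ, jet2_congr (Dt.U_pt_ev hR hξ e h1),
    jet2_smul _ (X.ext.vc2 R hR ξ hξ e q ⟨h1, h2⟩)] at h4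
  exact h4.trans ((mul_eq_zero.1 h5).resolve_right (Complex.ofReal_ne_zero.2 r1.ne'))

theorem T1_le {f : R2 → ℝ} {v : R2} (h : ContDiffAt ℝ 2 f v) :
    ‖T1 (jet2 (fun z => (f z : ℂ)) v)‖ ≤ |f v| + ‖fderiv ℝ f v‖ := by
  have h1 : ∀ u : R2, ‖u‖ = 1 → |fderiv ℝ f v u| ≤ |f v| + ‖fderiv ℝ f v‖ := fun u hu => by
    have := (fderiv ℝ f v).le_opNorm u
    rw [hu, Real.norm_eq_abs] at this
    linarith [abs_nonneg (f v)]
  rw [show jet2 (fun z => (f z : ℂ)) v = _ from jet2_clm Complex.ofRealCLM h]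
  refine (pi_norm_le_iff_of_nonneg (by positivity)).2 fun k => ?_
  fin_cases k
  · simp [T1, jet2]
  · simpa [T1, jet2] using h1 (1, 0) (by simp)
  · simpa [T1, jet2] using h1 (0, 1) (by simp)
  all_goals simp [T1]; positivity

theorem cf_le (X : Dt D J κ) : ∃ C, 0 ≤ C ∧ ∀ R, X.R0 ≤ R → ∀ ξ ∈ Dom X.I X.c X.r' R,
    ‖X.cf ξ‖ ≤ C * ‖ξ‖ := by
  obtain ⟨C, h1, h2⟩ := (X.ext.chol.differentiableAt
    (ball_mem_nhds _ X.ext.r0)).isBigO_sub.exists_pos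
  obtain ⟨δ, h3, h4⟩ := Metric.eventually_nhds_iff.1 h2.bound
  refine ⟨C + X.r / 4 / δ, by have := X.box.r_pos; positivity, fun R hR ξ hξ => ?_⟩
  have h5 : 0 ≤ X.r / 4 / δ := by have := X.box.r_pos; positivity
  by_cases h : ‖ξ‖ < δ
  · have := h4 (y := ξ) (by simpa using h)
    rw [X.ext.c00, sub_zero, sub_zero] at this
    nlinarith [norm_nonneg ξ]
  · have h6 : ‖X.cf ξ‖ ≤ X.r / 4 :=
      ((norm_fst_le (X.cf ξ, X.om R ξ)).trans (norm_snd_le (X.x R ξ))).trans (X.ext.xb R hR ξ hξ)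
    have h7 := div_mul_cancel₀ (X.r / 4) h3.ne'
    nlinarith [norm_nonneg ξ, not_lt.1 h]

theorem dS_le [Fintype κ] (X : Dt D J κ) : ∃ B, 0 ≤ B ∧ ∀ k, ∀ v ∈ X.O k,
    |D6.dS (X.P k).φ (X.G.nn ((X.P k).φ v)) v| ≤ B := by
  have h : ∀ k, ∃ B, ∀ v ∈ X.O k, ‖(D6.dS (X.P k).φ (X.G.nn ((X.P k).φ v)) v : ℂ)‖ ≤ B := fun k => by
    obtain ⟨K, h1, h2, h3⟩ := X.ch.rel k
    obtain ⟨B, hB⟩ := h1.exists_bound_of_continuousOn (f := fun v => det3 (jS (X.P k).φ v 1)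
      (jS (X.P k).φ v 2) (cx (X.G.nn ((X.P k).φ v))) * dg (jS (X.P k).φ v)) fun v hv => by
      have h4 := (X.P k).cdAt2 (h3 hv)
      have h5 : Continuous fun a : J2 C3 × C3 => det3 (a.1 1) (a.1 2) a.2 * dg a.1 := by
        simp only [det3, dg, g11, g12, g22, cross_apply]
        fun_prop
      exact (h5.continuousAt.comp ((Iv.continuousAt_jet2 (Iv.contDiff_cx.contDiffAt.comp v h4)).prodMk
        ((Iv.cxL.continuous.comp X.G.nn_sm.continuous).continuousAt.comp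
          h4.continuousAt))).continuousWithinAt
    exact ⟨B, fun v hv => den_jS ((X.P k).cdAt2 (h3 (h2 hv))) _ ▸ hB v (h2 hv)⟩
  choose B hB using h
  refine ⟨∑ k, |B k|, by positivity, fun k v hv => ?_⟩
  have := hB k v hv
  rw [Complex.norm_real, Real.norm_eq_abs] at this
  exact this.trans ((le_abs_self _).trans
    (Finset.single_le_sum (fun k _ => abs_nonneg (B k)) (Finset.mem_univ k)))

theorem psi_le (X : Dt D J κ) : ∃ B, 0 ≤ B ∧ ∀ (l : J → ℝ) p, |∑ j, l j * X.ψ j p| ≤ B * ‖l‖ := by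
  choose B hB using fun j => (X.psi.cont j).bounded_above_of_compact_support (X.psi.cpt j)
  refine ⟨∑ j, B j, Finset.sum_nonneg fun j _ => (norm_nonneg _).trans (hB j 0), fun l p => ?_⟩
  rw [Finset.sum_mul]
  refine (Finset.abs_sum_le_sum_abs _ _).trans (Finset.sum_le_sum fun j _ => ?_)
  rw [abs_mul, mul_comm]
  exact mul_le_mul (hB j p) (norm_le_pi_norm l j) (abs_nonneg _) ((norm_nonneg _).trans (hB j 0))

end EqP

open EqP

namespace Dt
variable (X : Dt D J κ)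

theorem eqF [Fintype κ] (hG : X.GeoF) : ∃ C, 0 ≤ C ∧ X.EqF C := by
  obtain ⟨C1, c1, h1⟩ := cf_le X
  obtain ⟨C2, c2, h2⟩ := dS_le X
  obtain ⟨C3, c3, h3⟩ := psi_le X
  have c4 := X.box.C_pos
  refine ⟨X.Cc * (1 + C1) * C3 * C2, by positivity, fun R hR x hx k v hv hσ => ?_,
    fun R hR x hx k v hv hσ =>
      (key hR hx (chart hG k hv).1 (hG.geo.imm k v hv) (chart hG k hv).2 hσ).2⟩
  have hk := (key hR hx (chart hG k hv).1 (hG.geo.imm k v hv) (chart hG k hv).2 hσ).1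
  have hend : ∀ (e : En D) (q : R2), X.zm + 4 < q.1 → X.Φ k v = pt e q →
      D6.Mc (fun v => X.Y R x (X.Φ k v)) v - (∑ j, D6.reL (X.lam R (re2c x)) j * X.ψ j (X.Φ k v)) *
        D6.dS (X.Φ k) (X.G.nn (X.Φ k v)) v = 0 := fun e q hq h => by
    have h0 : X.G.z0 < q.1 := by linarith [X.hz]
    rw [h, Mh_pt hR hx e hq (h ▸ hσ), zero_mul, Complex.ofReal_eq_zero] at hk
    rw [hk, Finset.sum_eq_zero fun j _ => ?_, zero_mul, sub_zero]
    rw [X.psi.spt j _ (chart hG k hv).2.self_of_nhds (by rw [h, X.G.σ_pt e q h0]; linarith),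
      mul_zero]
  rcases k with e | k | e
  · rw [hend e _ (X.lt_co e hv) (endPt_eq e (X.s1_pos.trans hv).le), abs_zero]
    positivity
  swap
  · rw [hend e v hv rfl, abs_zero]
    positivity
  obtain ⟨K, -, k1, k2⟩ := X.ch.rel k
  have hy := k2 (k1 hv)
  have hp := ((X.P k).maps v hy).1
  have hT : X.G.σ ((X.P k).φ v) < TT X.zm X.n := (X.ch.lt k v hv).trans_le X.T_ge
  obtain ⟨-, r2, r3⟩ := real hR hx
  have hev : ∀ (Q : Patch (SS w)) (y : R2), y ∈ Q.O → Q.φ y = (X.P k).φ v → ∀ᶠ z in 𝓝 y,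
      X.U R (re2c x) (Q.φ z) = X.u (X.x R (re2c x)) (Q.φ z) ∧ (X.U R (re2c x) (Q.φ z)).im = 0 :=
    fun Q y hy h => by
      filter_upwards [Iv.ev_zero Q hy, (X.G.σ_sm.continuous.continuousAt.comp
        (Q.cdAt hy).continuousAt).eventually (gt_mem_nhds (h.symm ▸ hT :
          X.G.σ (Q.φ y) < TT X.zm X.n))] with z z1 z2
      exact ⟨U_core hR hx z1 z2.le, r3 _ z1 (lt_of_lt_of_le z2 (by
        linarith [X.R_ge hR, X.T_ge, X.hz']))⟩
  have e1 : X.G.aG X.zm (X.cf (re2c x)) (X.U R (re2c x)) ((X.P k).φ v) =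
      X.G.aG X.zm (X.x R (re2c x)).2.1 (X.u (X.x R (re2c x))) ((X.P k).φ v) := by
    unfold Geo.aG Geo.jG
    rw [jet2_congr ((hev _ _ (Iv.pa_spec X.G hp).1 (Iv.pa_spec X.G hp).2).mono fun z hz => hz.1)]
    rfl
  have e2 : sumP X.ψ (X.lm (X.x R (re2c x))) ((X.P k).φ v) =
      (∑ j, D6.reL (X.lam R (re2c x)) j * X.ψ j ((X.P k).φ v) : ℝ) := by
    push_cast
    refine Finset.sum_congr rfl fun j _ => ?_
    rw [D6.reL, Complex.conj_eq_iff_re.1 (congrFun r2 j)]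
    rfl
  have e3 := X.box.kap_le _ (x_mem hR hx) k v hv
  rw [← jet2_congr (f := fun z => (((X.U R (re2c x) ((X.P k).φ z)).re : ℝ) : ℂ))
    ((hev _ v hy rfl).mono fun z hz => hz.1 ▸ Complex.ext rfl (by simp [hz.2]))] at e3
  have e4 := T1_le (Complex.reCLM.contDiff.contDiffAt.comp v (U_c2 hR hx _ hy hσ))
  have e5 := h1 R hR _ hx
  rw [D6.Ser.norm_re2c] at e5
  change _ = Mh (X.G.aG _ _ _ ((X.P k).φ v)) * _ at hk
  rw [e1, X.box.eq _ (x_mem hR hx) _ hp hT, e2] at hk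
  rw [← Real.norm_eq_abs, ← Complex.norm_real]
  simp only [Complex.ofReal_sub, Complex.ofReal_mul, hk]
  change ‖_ - ((∑ j, D6.reL (X.lam R (re2c x)) j * X.ψ j ((X.P k).φ v) : ℝ) : ℂ) * _‖ ≤ _
  rw [← sub_mul, ← sub_one_mul, norm_mul, norm_mul, Complex.norm_real, Complex.norm_real, pow_zero,
    mul_one]
  refine (mul_le_mul (mul_le_mul (e3.trans (mul_le_mul_of_nonneg_left (add_le_add e4 e5) c4.le))
    (h3 _ _) (abs_nonneg _) (by positivity)) (h2 k v hv) (abs_nonneg _) (by positivity)).trans ?_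
  change X.Cc * (?A + ?B + C1 * ‖x‖) * (C3 * ?L) * C2 ≤ _ * ?L * (?A + ?B + ‖x‖)
  have : ?A + ?B + C1 * ‖x‖ ≤ (1 + C1) * (?A + ?B + ‖x‖) := by
    have : 0 ≤ ?A + ?B := by positivity
    nlinarith [norm_nonneg x]
  calc _ ≤ X.Cc * ((1 + C1) * (?A + ?B + ‖x‖)) * (C3 * ?L) * C2 := by gcongr
    _ = _ := by ring

end Dt

end Vale.Agent.P218N.Ra
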