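import Vale.Agent.P218N.Ra.Bas
import Vale.Agent.P274.Bdl.B5

/-! The assembly of `Red`: the static fields, the multipliers, injectivity. -/

open Set Filter Topology Metric MeasureTheory
open scoped RealInnerProductSpace ContDiff

noncomputable section

namespace Vale.Agent.P218N.Ra

open Vale.Agent.P218.H313 Vale.Agent.P218N.H Vale.Agent.P218N.G Vale.Agent.P218N.End
  Vale.Agent.P218N.Core Vale.Agent.P218F Vale.Agent.P218GA Vale.Agent.P274.HolOs

set_option maxSynthPendingDepth 3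
set_option linter.unusedSectionVars false

variable {w : E3 → ℝ} {D : EndData w} {J κ : Type} [Fintype J] [DecidableEq J]

theorem co_imm (e : En D) {v : R2} (hv : 0 < v.1) : Function.Injective (fderiv ℝ (co e) v) := by
  obtain ⟨a, a0, ha⟩ : ∃ a, 0 < a ∧ HasDerivAt (D6.endSg D e) a v.1 := by
    rcases e with i | b
    · exact ⟨_, by positivity, ((hasDerivAt_id' v.1).const_mul 2).exp⟩
    · exact ⟨_, by positivity, hasDerivAt_pow 2 v.1⟩
  rw [show fderiv ℝ (co e) v = _ from ((ha.comp_hasFDerivAt v hasFDerivAt_fst).prodMk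
    hasFDerivAt_snd).fderiv]
  intro x y h
  simpa [Prod.ext_iff, a0.ne'] using h

/-- a Lipschitz bound for bounded holomorphic maps -/
theorem lip_of_hol {E F : Type*} [NormedAddCommGroup E] [NormedSpace ℂ E] [NormedAddCommGroup F]
    [NormedSpace ℂ F] {f : E → F} {r B : ℝ} (hr : 0 < r) (hf : DifferentiableOn ℂ f (ball 0 r))
    (hB : ∀ y ∈ ball (0 : E) r, ‖f y‖ ≤ B) {x y : E} (hx : ‖x‖ ≤ r / 2) (hy : ‖y‖ ≤ r / 2) :
    ‖f x - f y‖ ≤ B / (r / 2) * ‖x - y‖ := by
  have h1 : ∀ z ∈ closedBall (0 : E) (r / 2), ball z (r / 2) ⊆ ball 0 r := fun z hz =>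
    ball_subset_ball' (by linarith [mem_closedBall.1 hz])
  exact (convex_closedBall 0 (r / 2)).norm_image_sub_le_of_norm_fderiv_le (fun z hz =>
    hf.differentiableAt (mem_of_superset (ball_mem_nhds z (half_pos hr)) (h1 z hz)))
    (fun z hz => norm_fderiv_le_of_ball (half_pos hr) (hf.mono (h1 z hz)) fun y hy =>
      hB y (h1 z hz hy)) (mem_closedBall_zero_iff.2 hy) (mem_closedBall_zero_iff.2 hx)

namespace Dt
variable (X : Dt D J κ)

theorem mem_ep (e : En D) {q : R2} (hq : X.zm + 4 < q.1) : q ∈ (X.G.ep e q.2).O := by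
  rw [X.G.ep_O]
  exact ⟨show X.G.z0 < q.1 by linarith [X.hz], by linarith [Real.pi_pos],
    by linarith [Real.pi_pos]⟩

theorem O_sub (k : κ) : X.O k ⊆ (X.P k).O :=
  have ⟨_, _, h1, h2⟩ := X.ch.rel k
  h1.trans h2

theorem geoF : X.GeoF := by
  have z0 : ∀ (e : En D) {v : R2}, X.s1 < v.1 → X.G.z0 < (co e v).1 := fun e v hv => by
    linarith [X.hz, X.lt_co e hv]
  have e1 : ∀ (e : En D) {v : R2}, X.s1 < v.1 → D6.endPt D e v = pt e (co e v) := fun e v hv =>
    endPt_eq e (X.s1_pos.trans hv).le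
  refine ⟨⟨?_, X.G.nn_sm, fun p hp => ?_, fun i => ⟨_, X.G.s_sq (.inl i), fun v hv => ?_⟩,
    fun b => ⟨_, X.G.s_sq (.inr b), fun v hv => ?_⟩, ?_, ?_, ?_, ?_, fun p hp => ?_⟩,
    fun e v hv => by rw [e1 e hv, X.G.σ_pt e _ (z0 e hv), co], fun j =>
      ((contDiff_cut _ _).comp X.G.σ_sm).mul (X.G.ind_sm _), fun j e v hv => ?_,
    fun j t x hx => ?_, fun j t => by simp [Gr, D6.Ser.re2c_zero, X.ext.c00, JA.RQ_zero, mR]⟩
  · have h0 : 0 < X.G.z0 := by linarith [X.G.one_le]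
    have h1 := Real.log_le_sub_one_of_pos (Real.sqrt_pos.2 h0)
    rw [Real.log_sqrt h0.le] at h1
    linarith [X.G.s0, Real.sqrt_le_sqrt (show X.G.z0 ≤ X.zm + 4 by linarith [X.hz]),
      show X.s1 = √(X.zm + 4) from rfl]
  · have := X.G.pos p hp
    rw [nuW, real_inner_smul_right] at this
    exact (mul_pos_iff_of_pos_left (inv_pos.2 (norm_pos_iff.2 (X.G.shr.ne p hp)))).1 this
  · refine (congrArg X.G.nn (e1 (.inl i) hv)).trans ((X.G.nn_pt _ _ (z0 _ hv)).trans ?_)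
    simp only [dir, co, D6.endSg, Sum.elim_inl, smul_smul]
    rw [mul_comm 2, Real.exp_mul, Real.rpow_two, Real.sqrt_sq (Real.exp_pos _).le]
  · exact (congrArg X.G.nn (e1 (.inr b) hv)).trans (X.G.nn_pt _ _ (z0 _ hv))
  · rintro (k | e)
    exacts [X.ch.op k, isOpen_lt continuous_const continuous_fst]
  · rintro (k | e) v hv
    · exact ((X.P k).cdAt2 (X.O_sub k hv)).contDiffWithinAt
    · exact (X.G.ep_φ e v.2 ▸ (X.G.ep e v.2).cdAt2 (X.mem_ep e hv)).contDiffWithinAt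
  · rintro (k | e) v hv
    · exact ((X.P k).maps v (X.O_sub k hv)).1
    · exact (X.G.ep_φ e v.2 ▸ (X.G.ep e v.2).maps v (X.mem_ep e hv)).1
  · rintro (e | k | e) v hv
    · have h1 := X.mem_ep e (X.lt_co e hv)
      have h2 := X.G.ep_φ e _ ▸ (X.G.ep e _).cdAt2 h1
      show Function.Injective (fderiv ℝ (D6.endPt D e) v)
      rw [(endPt_ev e (X.s1_pos.trans hv)).fderiv_eq, fderiv_fun_comp v
        (h2.differentiableAt two_ne_zero) ((co_smooth e).differentiable (by simp) v)]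
      exact (X.G.ep_φ e _ ▸ (X.G.ep e _).imm _ h1).comp (co_imm e (X.s1_pos.trans hv))
    · exact (X.P k).imm v (X.O_sub k hv)
    · exact (X.G.ep_φ e v.2 ▸ (X.G.ep e v.2).imm v (X.mem_ep e hv) :)
  · by_cases h : X.G.σ p < X.zm + 5
    · obtain ⟨k, y, h1, h2⟩ := X.ch.cover p hp h
      exact ⟨.inr (.inl k), y, h1, h2⟩
    · obtain ⟨e, q, h1, rfl⟩ := X.G.cover p hp (by linarith [X.hz])
      rw [X.G.σ_pt e q h1] at h
      exact ⟨.inr (.inr e), q, show X.zm + 4 < q.1 by linarith, rfl⟩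
  · rw [e1 e hv, Geo.chi, X.G.σ_pt e _ (z0 e hv), X.G.ind_pt _ e _ (z0 e hv),
      cut_one (by push_cast; linarith [X.lt_co e hv]), one_mul]
    simp only [eq_comm]
  · have h1 : ContDiff ℝ 2 (re2c : (J → ℝ) → J → ℂ) :=
      contDiff_pi.2 fun i => Complex.ofRealCLM.contDiff.comp (contDiff_apply ℝ ℝ i)
    have h2 := (((contDiffOn_of_differentiableOn isOpen_ball X.ext.chol 2).contDiffAt
      (isOpen_ball.mem_nhds (mem_ball_zero_iff.2 (by rwa [D6.Ser.norm_re2c])))).restrict_scalars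
      ℝ).comp x h1.contDiffAt
    have h3 : ContDiffAt ℝ 2 (fun z : ℝ × (J → ℝ) => (z.1 : ℂ) • X.cf (re2c z.2) j) (t, x) :=
      (Complex.ofRealCLM.contDiff.contDiffAt.comp _ contDiffAt_fst).smul
        (contDiffAt_pi.1 (h2.comp (t, x) contDiffAt_snd) j)
    unfold Gr mR
    refine ContDiffAt.sum fun i _ => ContDiffAt.sum fun k _ => ContDiffAt.fun_smul ?_
      contDiffAt_const
    exact Complex.reCLM.contDiff.contDiffAt.comp _ (((((JA.sm_RQ (D.Q j) i k).of_le
      Iv.two_le_inf).restrict_scalars ℝ).contDiffAt.comp _ h3).sub contDiffAt_const)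

theorem fderiv_bdd : ∃ B, ∀ R, X.R0 ≤ R → ‖fderiv ℂ (X.x R) 0‖ ≤ B := by
  have c0 := X.ext.c0
  have r0 := X.ext.r0
  have C0 := X.ext.C0
  set ρ := min (X.r' / 2) (X.c / 2)
  have ρ0 : 0 < ρ := by positivity
  have a0 : Summable fun m : ℕ => X.C * Real.exp (-(X.κ' * m)) / (ρ / (m + 1 : ℕ)) := by
    have := ((Real.summable_pow_mul_exp_neg_nat_mul 1 X.ext.κ0).add
      (Real.summable_pow_mul_exp_neg_nat_mul 0 X.ext.κ0)).mul_left (X.C / ρ)
    refine this.congr fun m => ?_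
    push_cast
    field_simp
  have d : ∀ R, X.R0 ≤ R → DifferentiableAt ℂ (X.x R) 0 := fun R hR =>
    (x_hol hR).differentiableAt ((X.isOpen_dom R).mem_nhds (X.zero_mem hR))
  refine ⟨‖fderiv ℂ (X.x X.R0) 0‖ + ∑' m : ℕ, X.C * Real.exp (-(X.κ' * m)) / (ρ / (m + 1 : ℕ)),
    fun R hR => le_trans (b := ‖fderiv ℂ (X.x X.R0) 0‖ + ∑ m ∈ Finset.range R,
      X.C * Real.exp (-(X.κ' * m)) / (ρ / (m + 1 : ℕ))) ?_
      (add_le_add_right (a0.sum_le_tsum _ fun _ _ => by positivity) _)⟩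
  induction R, hR using Nat.le_induction with
  | base => exact le_add_of_nonneg_right (by positivity)
  | succ R hR ih =>
    have h1 : ball 0 (ρ / (R + 1 : ℕ)) ⊆ Dom X.I X.c X.r' (R + 1) := by
      simpa [D6.Ser.re2c_zero] using D6.Ser.ball_sub (x := 0) (I := X.I) (R := R + 1) (by omega) ρ0
        (min_le_left _ _) (min_le_right _ _) (by simp; positivity) fun _ _ => by simp; positivity
    have h2 := norm_fderiv_le_of_ball (by positivity) (((x_hol (R := R + 1) (by omega)).mono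
      h1).sub ((x_hol hR).mono (h1.trans (X.dom_succ hR)))) fun y hy => x_step hR (h1 hy)
    rw [fderiv_sub (d _ (by omega)) (d _ hR)] at h2
    rw [Finset.sum_range_succ]
    linarith [norm_le_norm_add_norm_sub' (fderiv ℂ (X.x (R + 1)) 0) (fderiv ℂ (X.x R) 0)]

theorem lamF : ∃ C, 0 ≤ C ∧ X.LamF C := by
  have r0 := X.box.r_pos
  have c0 := X.box.C_pos
  have C0 := X.ext.C0
  have hb : ∀ y ∈ ball (0 : Par D J) X.r, ‖X.lm y‖ ≤ X.Cc * X.r := fun y hy =>
    (X.box.lb y hy).trans (mul_le_mul_of_nonneg_left (mem_ball_zero_iff.1 hy).le c0.le)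
  have e : X.Cc * X.r / (X.r / 2) = 2 * X.Cc := by field_simp
  have a1 : 0 ≤ X.Cc * X.C := by positivity
  refine ⟨X.Cc * X.r + 2 * X.Cc * X.C + X.C, by positivity, fun R hR =>
    X.box.lhol.comp (x_hol hR) fun ξ => x_mem hR, fun ξ hξ => (hb _ (x_mem le_rfl hξ)).trans
    (by linarith), fun R hR ξ hξ => ?_, fun R hR => ?_, fun R hR x hx => ?_, fun b hb => ?_⟩
  · refine (lip_of_hol r0 X.box.lhol hb ((X.ext.xb _ (by omega) ξ hξ).trans (by linarith))
      ((X.ext.xb _ hR ξ (X.dom_succ hR hξ)).trans (by linarith))).trans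
      ((mul_le_mul_of_nonneg_left (x_step hR hξ) (by positivity)).trans ?_)
    rw [e, ← mul_assoc]
    gcongr
    nlinarith
  · refine (X.box.lb _ (x_mem hR (X.zero_mem hR))).trans
      ((mul_le_mul_of_nonneg_left (x_zero hR) c0.le).trans ?_)
    rw [← mul_assoc]
    gcongr
    nlinarith
  · have h1 : re2c x ∈ Dom X.I X.c X.r' R := ⟨hx.1.trans (half_lt_self X.ext.r0), fun i hi =>
      (hx.2 i hi).trans_le (by gcongr; linarith [X.ext.c0])⟩
    have h2 : X.lam R (re2c x) = re2c (D6.reL (X.lam R (re2c x))) := funext fun j =>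
      (Complex.conj_eq_iff_re.1 (congrFun (real hR h1).2.1 j)).symm
    refine (X.ext.dF R hR x hx).trans ?_
    rw [← D6.Ser.norm_re2c (D6.reL _), ← h2]
    exact mul_le_mul_of_nonneg_right (by nlinarith) (by positivity)
  obtain ⟨B, hB⟩ := X.fderiv_bdd
  have d : ∀ R, X.R0 ≤ R → HasFDerivAt (X.x R) (fderiv ℂ (X.x R) 0) 0 := fun R hR =>
    ((x_hol hR).differentiableAt ((X.isOpen_dom R).mem_nhds (X.zero_mem hR))).hasFDerivAt
  refine X.ext.yinj b fun k => ?_
  have h1 := X.box.dinj (fun m => X.x (m + X.R0) 0) (fun m => fderiv ℂ (X.x (m + X.R0)) 0 (re2c b))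
    (fun m => mem_ball_zero_iff.1 (x_mem (by omega) (X.zero_mem (by omega))))
    ⟨B * ‖re2c b‖, fun m => ContinuousLinearMap.le_of_opNorm_le _ (hB _ (by omega)) _⟩
    (fun p hp h => ?_) k
  · refine tendsto_nhds_unique tendsto_const_nhds (h1.congr fun m => ?_)
    rw [show fderiv ℂ X.yf 0 = _ from (d (m + X.R0) (by omega)).fst.fderiv]
    rfl
  have h2 : ∀ x, D6.rotF X.Gr (X.G.chi X.zm) x p = ContinuousLinearMap.id ℝ E3 := fun x => by
    simp [D6.rotF, Gr, Geo.chi, cut_zero (show X.G.σ p ≤ X.zm + (2 : ℕ) + 1 / 3 by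
      push_cast; linarith), JA.RQ_zero, mR]
  have h3 := ((hb p hp).comp (tendsto_add_atTop_nat X.R0)).div_const ⟪X.G.nn p, grad w p⟫
  obtain ⟨j, y, hy, rfl⟩ := X.ch.cover p hp (by linarith)
  rw [zero_div] at h3
  refine h3.congr fun m => ?_
  have h4 := ((differentiableOn_pi.1 (X.box.uhol j y hy) 0).differentiableAt (isOpen_ball.mem_nhds
    (x_mem (R := m + X.R0) (by omega) (X.zero_mem (by omega))))).hasFDerivAt.comp 0 (d _ (by omega))
  simp only [Function.comp, h2, fderiv_fun_const, Pi.zero_apply, zero_apply, inner_zero_left,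
    add_zero, mul_div_cancel_right₀ _ (X.geoF.geo.npos _ hp).ne', U,
    if_pos (show X.G.σ ((X.P j).φ y) < X.zm + 5 by linarith)]
  exact congrArg (fun L : (J → ℂ) →L[ℂ] ℂ => (L (re2c b)).re) h4.fderiv

end Dt

end Vale.Agent.P218N.Ra
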