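import Vale.Agent.P218N.Ra.Bas

/-! The assembly of `Red`: the jets of the normal graphs. -/

open Set Filter Topology Metric MeasureTheory
open scoped RealInnerProductSpace ContDiff

noncomputable section

namespace Vale.Agent.P218N.Ra

open Vale.Agent.P218.H313 Vale.Agent.P218N.H Vale.Agent.P218N.G Vale.Agent.P218N.End
  Vale.Agent.P218N.Core Vale.Agent.P218F Vale.Agent.P218GA

set_option maxSynthPendingDepth 3
set_option linter.unusedSectionVars false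

variable {w : E3 → ℝ} {D : EndData w} {J κ : Type} [Fintype J] [DecidableEq J]

namespace JetsP

theorem d2 {f : R2 → ℂ} {y : R2} (hf : ContDiffAt ℝ 2 f y) (u v : R2) :
    fderiv ℝ (fderiv ℝ f) y u v = (u.1 * v.1) • jet2 f y 3 + (u.1 * v.2 + u.2 * v.1) • jet2 f y 4 +
      (u.2 * v.2) • jet2 f y 5 := by
  have hs : fderiv ℝ (fderiv ℝ f) y (0, 1) (1, 0) = fderiv ℝ (fderiv ℝ f) y (1, 0) (0, 1) :=
    (hf.isSymmSndFDerivAt (by simp)).eq _ _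
  show _ = (u.1 * v.1) • fderiv ℝ (fderiv ℝ f) y (1, 0) (1, 0) +
    (u.1 * v.2 + u.2 * v.1) • fderiv ℝ (fderiv ℝ f) y (1, 0) (0, 1) +
    (u.2 * v.2) • fderiv ℝ (fderiv ℝ f) y (0, 1) (0, 1)
  rw [Iv.clm_R2 _ u, add_apply, smul_apply, smul_apply, Iv.clm_R2 _ v,
    Iv.clm_R2 (fderiv ℝ (fderiv ℝ f) y (0, 1)) v, hs]
  module

theorem d1 (f : R2 → ℂ) (y u : R2) :
    fderiv ℝ f y u = u.1 • jet2 f y 1 + u.2 • jet2 f y 2 := Iv.clm_R2 _ u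

theorem norm_clm {V : Type*} [NormedAddCommGroup V] [NormedSpace ℝ V] (L : R2 →L[ℝ] V) {b : ℝ}
    (h1 : ‖L (1, 0)‖ ≤ b) (h2 : ‖L (0, 1)‖ ≤ b) : ‖L‖ ≤ 2 * b := by
  have hb : 0 ≤ b := (norm_nonneg _).trans h1
  refine ContinuousLinearMap.opNorm_le_bound _ (by positivity) fun u => ?_
  rw [Iv.clm_R2 L u]
  refine (norm_add_le _ _).trans ?_
  rw [norm_smul, norm_smul]
  have e1 := mul_le_mul (norm_fst_le u) h1 (norm_nonneg _) (norm_nonneg _)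
  have e2 := mul_le_mul (norm_snd_le u) h2 (norm_nonneg _) (norm_nonneg _)
  linarith

theorem jb_of {f : R2 → ℂ} {y : R2} {b : ℝ} (hf : ContDiffAt ℝ 2 f y) (h : ‖jet2 f y‖ ≤ b) :
    D6.JB f y (4 * b) (4 * b) (4 * b) := by
  have hb : 0 ≤ b := (norm_nonneg _).trans h
  have hk : ∀ k, ‖jet2 f y k‖ ≤ b := fun k => (norm_le_pi_norm _ k).trans h
  have hs : fderiv ℝ (fderiv ℝ f) y (0, 1) (1, 0) = fderiv ℝ (fderiv ℝ f) y (1, 0) (0, 1) :=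
    (hf.isSymmSndFDerivAt (by simp)).eq _ _
  refine ⟨hf, (hk 0).trans (by linarith), (norm_clm _ (hk 1) (hk 2)).trans (by linarith), ?_⟩
  exact (norm_clm _ (norm_clm _ (hk 3) (hk 4)) (norm_clm _ (hs ▸ hk 4) (hk 5))).trans (by linarith)

theorem holJ_of {U : (J → ℂ) → R2 → ℂ} {Ω : Set (J → ℂ)} {v : R2}
    (hc : ∀ ξ ∈ Ω, ContDiffAt ℝ 2 (U ξ) v) (h : DifferentiableOn ℂ (fun ξ => jet2 (U ξ) v) Ω) :
    D6.HolJ U Ω v := by
  have hk : ∀ k, DifferentiableOn ℂ (fun ξ => jet2 (U ξ) v k) Ω := differentiableOn_pi.1 h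
  refine ⟨hk 0, fun e => ?_, fun e e' => ?_⟩
  · exact (((hk 1).const_smul e.1).add ((hk 2).const_smul e.2)).congr fun ξ _ => d1 _ _ _
  · exact ((((hk 3).const_smul (e.1 * e'.1)).add
      ((hk 4).const_smul (e.1 * e'.2 + e.2 * e'.1))).add
      ((hk 5).const_smul (e.2 * e'.2))).congr fun ξ hξ => d2 (hc ξ hξ) _ _

theorem jet2_sub {f g : R2 → ℂ} {y : R2} (hf : ContDiffAt ℝ 2 f y) (hg : ContDiffAt ℝ 2 g y) :
    jet2 (fun z => f z - g z) y = jet2 f y - jet2 g y := by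
  have h := jet2_add hf (contDiffAt_const (c := (-1 : ℂ)).mul hg)
  rw [jet2_smul _ hg] at h
  simpa [sub_eq_add_neg] using h

theorem jet_co {h h' : ℝ → ℝ} {h'' : ℝ} (v : R2) (H : ∀ s, HasDerivAt h (h' s) s)
    (H' : HasDerivAt h' h'' v.1) : jet2 (fun y : R2 => (h y.1, y.2)) v =
      ![(h v.1, v.2), (h' v.1, 0), (0, 1), (h'', 0), 0, 0] := by
  have e1 : fderiv ℝ (fun y : R2 => (h y.1, y.2)) = fun y =>
      (ContinuousLinearMap.inr ℝ ℝ ℝ).comp (ContinuousLinearMap.snd ℝ ℝ ℝ) +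
        h' y.1 • (ContinuousLinearMap.inl ℝ ℝ ℝ).comp (ContinuousLinearMap.fst ℝ ℝ ℝ) := by
    funext y
    refine (((H y.1).comp_hasFDerivAt y (hasFDerivAt_fst (𝕜 := ℝ))).prodMk
      hasFDerivAt_snd).fderiv.trans ?_
    ext <;> simp
  have e2 := (((H'.comp_hasFDerivAt v (hasFDerivAt_fst (𝕜 := ℝ))).smul_const
    ((ContinuousLinearMap.inl ℝ ℝ ℝ).comp (ContinuousLinearMap.fst ℝ ℝ ℝ))).const_add
    ((ContinuousLinearMap.inr ℝ ℝ ℝ).comp (ContinuousLinearMap.snd ℝ ℝ ℝ))).fderiv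
  unfold jet2
  rw [e1]
  erw [e2]
  ext k <;> fin_cases k <;> simp

theorem co_data (e : En D) {v : R2} (hv : 1 ≤ v.1) : ∃ a b t : ℝ,
    jet2 (co e) v = ![co e v, (a, 0), (0, 1), (b, 0), 0, 0] ∧ 0 ≤ a ∧
      a ^ 2 = 4 * OmE e (co e v).1 ∧ 0 ≤ b ∧ b ≤ 4 * OmE e (co e v).1 ∧
      D6.endXi D e v = (t, 0) ∧ 0 ≤ t ∧ 0 ≤ D6.endSc D e v ∧
      D6.endSc D e v * (t * a) ≤ 2 * OmE e (co e v).1 := by
  rcases e with i | j
  · have H : ∀ s : ℝ, HasDerivAt (fun s => Real.exp (2 * s)) (2 * Real.exp (2 * s)) s := fun s => by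
      simpa [mul_comm] using ((hasDerivAt_id s).const_mul 2).exp
    have h1 : 1 ≤ Real.exp (2 * v.1) := Real.one_le_exp (by linarith)
    have h2 : Real.exp v.1 ≤ Real.exp (2 * v.1) := Real.exp_le_exp.2 (by linarith)
    refine ⟨_, _, 1, jet_co v H ((H v.1).const_mul 2), by positivity, ?_, by positivity, ?_, rfl,
      zero_le_one, (Real.exp_pos _).le, ?_⟩
    · show _ = 4 * Real.exp (2 * v.1) ^ 2
      ring
    · show _ ≤ 4 * Real.exp (2 * v.1) ^ 2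
      nlinarith
    · show Real.exp v.1 * _ ≤ 2 * Real.exp (2 * v.1) ^ 2
      nlinarith
  · have H : ∀ s : ℝ, HasDerivAt (fun s : ℝ => s ^ 2) (2 * s) s := fun s => by
      simpa using hasDerivAt_pow 2 s
    refine ⟨_, _, v.1, jet_co v H ((hasDerivAt_id v.1).const_mul 2), by linarith, ?_, by norm_num,
      ?_, rfl, by linarith, zero_le_one, ?_⟩
    · show _ = 4 * v.1 ^ 2
      ring
    · show _ ≤ 4 * v.1 ^ 2
      nlinarith
    · show 1 * _ ≤ 2 * v.1 ^ 2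
      nlinarith

theorem one_le_OmE (e : En D) {ζ : ℝ} (h : 1 ≤ ζ) : 1 ≤ OmE e ζ := by
  rcases e with i | j
  · exact one_le_pow₀ h
  · exact h

theorem norm_le_six {m : J2 ℂ} {B : ℝ} (h0 : ‖m 0‖ ≤ B) (h1 : ‖m 1‖ ≤ B) (h2 : ‖m 2‖ ≤ B)
    (h3 : ‖m 3‖ ≤ B) (h4 : ‖m 4‖ ≤ B) (h5 : ‖m 5‖ ≤ B) : ‖m‖ ≤ B := by
  refine (pi_norm_le_iff_of_nonneg ((norm_nonneg _).trans h0)).2 fun k => ?_
  fin_cases k
  exacts [h0, h1, h2, h3, h4, h5]

theorem wj_le {e : En D} {ζ B : ℝ} {m : J2 ℂ} (h : WJ e ζ m B) (h1 : 1 ≤ ζ) : ‖m‖ ≤ 8 * B := by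
  have hB : 0 ≤ B := (norm_nonneg _).trans h.b0
  have h2 := one_le_OmE e h1
  have h3 : 1 ≤ √(OmE e ζ) := Real.one_le_sqrt.2 h2
  exact (norm_le_six h.b0 ((le_mul_of_one_le_left (norm_nonneg _) h2).trans h.b1) h.b2
    ((le_mul_of_one_le_left (norm_nonneg _) h2).trans h.b3)
    ((le_mul_of_one_le_left (norm_nonneg _) h3).trans h.b4) h.b5).trans (by linarith)

theorem wj_rep {e : En D} {ζ B a b : ℝ} {m : J2 ℂ} {q : R2} (h : WJ e ζ m B) (h1 : 1 ≤ ζ)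
    (ha : 0 ≤ a) (ha2 : a ^ 2 = 4 * OmE e ζ) (hb : 0 ≤ b) (hb2 : b ≤ 4 * OmE e ζ) :
    ‖Iv.rep ![q, (a, 0), (0, 1), (b, 0), 0, 0] m‖ ≤ 8 * B := by
  have hB : 0 ≤ B := (norm_nonneg _).trans h.b0
  have h2 := one_le_OmE e h1
  have h3 : a = 2 * √(OmE e ζ) := by
    rw [← Real.sqrt_sq ha, ha2, Real.sqrt_mul (by norm_num), show (4 : ℝ) = 2 ^ 2 by norm_num,
      Real.sqrt_sq (by norm_num)]
  have h4 : a ≤ 2 * OmE e ζ := by nlinarith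
  have n1 := norm_nonneg (m 1)
  refine norm_le_six (h.b0.trans (by linarith)) ?_ ?_ ?_ ?_ ?_
  · have : ‖Iv.rep ![q, (a, 0), (0, 1), (b, 0), 0, 0] m 1‖ = a * ‖m 1‖ := by
      simp [Iv.rep_one, abs_of_nonneg ha]
    nlinarith [h.b1]
  · have : ‖Iv.rep ![q, (a, 0), (0, 1), (b, 0), 0, 0] m 2‖ = ‖m 2‖ := by simp [Iv.rep_two]
    linarith [h.b2]
  · have e1 : Iv.rep ![q, (a, 0), (0, 1), (b, 0), 0, 0] m 3 = (a ^ 2) • m 3 + b • m 1 := by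
      simp [Iv.rep_three, pow_two]
    rw [e1]
    refine (norm_add_le _ _).trans ?_
    rw [norm_smul, norm_smul, Real.norm_of_nonneg hb, Real.norm_of_nonneg (sq_nonneg a), ha2]
    nlinarith [h.b1, h.b3]
  · have : ‖Iv.rep ![q, (a, 0), (0, 1), (b, 0), 0, 0] m 4‖ = a * ‖m 4‖ := by
      simp [Iv.rep_four, abs_of_nonneg ha]
    rw [this, h3]
    linarith [h.b4]
  · have : ‖Iv.rep ![q, (a, 0), (0, 1), (b, 0), 0, 0] m 5‖ = ‖m 5‖ := by simp [Iv.rep_five]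
    linarith [h.b5]

/-- the properties of the jets of a family of functions at a point -/
structure Gd (X : Dt D J κ) (f : ℕ → (J → ℂ) → R2 → ℂ) (v : R2) (R : ℕ) (C : ℝ) : Prop where
  c2 : ∀ ξ ∈ Dom X.I X.c X.r' R, ContDiffAt ℝ 2 (f R ξ) v
  c2' : ∀ ξ ∈ Dom X.I X.c X.r' (R + 1), ContDiffAt ℝ 2 (f (R + 1) ξ) v
  hol : DifferentiableOn ℂ (fun ξ => jet2 (f R ξ) v) (Dom X.I X.c X.r' R)
  b : ∀ ξ ∈ Dom X.I X.c X.r' R, ‖jet2 (f R ξ) v‖ ≤ C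
  step : ∀ ξ ∈ Dom X.I X.c X.r' (R + 1),
    ‖jet2 (f (R + 1) ξ) v - jet2 (f R ξ) v‖ ≤ C * Real.exp (-(X.κ' * R))
  zero : ‖jet2 (f R 0) v‖ ≤ C * Real.exp (-(X.κ' * R))

variable {X : Dt D J κ} {R : ℕ} {f : ℕ → (J → ℂ) → R2 → ℂ} {v : R2} {C C' : ℝ}

theorem Gd.mono (h : Gd X f v R C) (hC : C ≤ C') : Gd X f v R C' :=
  ⟨h.c2, h.c2', h.hol, fun ξ hξ => (h.b ξ hξ).trans hC,
    fun ξ hξ => (h.step ξ hξ).trans (by gcongr), h.zero.trans (by gcongr)⟩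

/-- the charts of the core -/
theorem gd_core (hR : X.R0 ≤ R) (k : κ) (hv : v ∈ X.O k) :
    Gd X (fun R ξ z => X.U R ξ ((X.P k).φ z)) v R (X.Cc * X.r + 3 * X.Cc * X.C) := by
  have hr := X.box.r_pos
  have hC := X.box.C_pos
  have hC0 := X.ext.C0
  have hR' : X.R0 ≤ R + 1 := hR.trans (Nat.le_succ R)
  have ev : ∀ R ξ, (fun z => X.U R ξ ((X.P k).φ z)) =ᶠ[𝓝 v]
      fun z => X.u (X.x R ξ) ((X.P k).φ z) := fun R ξ =>
    mem_of_superset ((X.ch.op k).mem_nhds hv) fun z hz => if_pos (X.ch.lt k z hz)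
  obtain ⟨K, -, hK1, hK2⟩ := X.ch.rel k
  have c2 : ∀ R, X.R0 ≤ R → ∀ ξ ∈ Dom X.I X.c X.r' R,
      ContDiffAt ℝ 2 (fun z => X.U R ξ ((X.P k).φ z)) v := fun R hR ξ hξ =>
    (X.box.c2 _ (Dt.x_mem hR hξ) (X.P k) v (hK2 (hK1 hv))
      ((X.ch.lt k v hv).trans_le X.T_ge)).congr_of_eventuallyEq (ev R ξ)
  set g : Par D J → J2 ℂ := fun x => jet2 (fun z => X.u x ((X.P k).φ z)) v with hg
  have je : ∀ R ξ, jet2 (fun z => X.U R ξ ((X.P k).φ z)) v = g (X.x R ξ) := fun R ξ =>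
    jet2_congr (ev R ξ)
  have gb : ∀ x ∈ ball (0 : Par D J) X.r, ‖g x‖ ≤ X.Cc * X.r := fun x hx =>
    (X.box.ub x hx k v hv).trans (mul_le_mul_of_nonneg_left (mem_ball_zero_iff.1 hx).le hC.le)
  have lip : ∀ x x' : Par D J, ‖x‖ ≤ X.r / 4 → ‖x'‖ ≤ X.r / 4 →
      ‖g x' - g x‖ ≤ 3 * X.Cc * ‖x' - x‖ := fun x x' hx hx' => by
    have hs : ball x (3 / 4 * X.r) ⊆ ball 0 X.r := ball_subset_ball' (by
      rw [dist_zero_right]; linarith)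
    have h1 := Complex.dist_le_div_mul_dist_of_mapsTo_ball (R₂ := 2 * (X.Cc * X.r))
      ((X.box.uhol k v hv).mono hs) (fun z hz => mem_closedBall_iff_norm.2
        ((norm_sub_le_of_le (gb z (hs hz)) (gb x (hs (mem_ball_self (by positivity))))).trans
          (by linarith))) (z := x') (mem_ball_iff_norm.2
        ((norm_sub_le_of_le hx' hx).trans_lt (by linarith)))
    rw [dist_eq_norm, dist_eq_norm] at h1
    refine h1.trans (mul_le_mul_of_nonneg_right ?_ (norm_nonneg _))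
    rw [div_le_iff₀ (by positivity)]
    nlinarith [mul_pos hC hr]
  have hE := Real.exp_pos (-(X.κ' * R))
  refine ⟨c2 R hR, c2 _ hR', ?_, fun ξ hξ => ?_, fun ξ hξ => ?_, ?_⟩
  · simp only [je]
    exact (X.box.uhol k v hv).comp (Dt.x_hol hR) fun ξ hξ => Dt.x_mem hR hξ
  · rw [je]
    exact (gb _ (Dt.x_mem hR hξ)).trans (le_add_of_nonneg_right (by positivity))
  · rw [je, je]
    refine (lip (X.x R ξ) (X.x (R + 1) ξ) (X.ext.xb R hR ξ (X.dom_succ hR hξ))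
      (X.ext.xb _ hR' ξ hξ)).trans ?_
    have := mul_le_mul_of_nonneg_left (Dt.x_step hR hξ) (show 0 ≤ 3 * X.Cc by positivity)
    nlinarith [mul_pos (mul_pos hC hr) hE]
  · rw [je]
    have h1 := X.box.ub _ (Dt.x_mem hR (X.zero_mem hR)) k v hv
    have := mul_le_mul_of_nonneg_left (Dt.x_zero (X := X) hR) hC.le
    nlinarith [mul_pos (mul_pos hC hr) hE, mul_nonneg (mul_nonneg hC.le hC0) hE.le]

theorem norm_s (X : Dt D J κ) (e : En D) : ‖(X.G.s e : ℂ)‖ = 1 := by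
  rcases X.G.s_sq e with h | h <;> simp [h]

/-- the graph in a chart of an end -/
theorem jet_end (e : En D) {ψ : R2 → R2} (hψ : ContDiffAt ℝ 2 ψ v) (hR : X.R0 ≤ R)
    (hq : (ψ v).1 ∈ Ioo (X.zm + 4) (R / 2)) {ξ : J → ℂ} (hξ : ξ ∈ Dom X.I X.c X.r' R)
    {F : R2 → ℂ} (hF : F =ᶠ[𝓝 v] fun z => X.U R ξ (pt e (ψ z))) : ContDiffAt ℝ 2 F v ∧
      jet2 F v = (X.G.s e : ℂ) • Iv.repL (jet2 ψ v) (jet2 (X.v R ξ e) (ψ v)) := by
  have h1 : F =ᶠ[𝓝 v] fun z => X.G.s e * X.v R ξ e (ψ z) :=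
    hF.trans (hψ.continuousAt.eventually (Dt.U_pt_ev hR hξ e hq.1))
  have h2 := X.ext.vc2 R hR ξ hξ e _ hq
  have h3 : ContDiffAt ℝ 2 (fun z => X.v R ξ e (ψ z)) v := h2.comp v hψ
  exact ⟨(contDiffAt_const.mul h3).congr_of_eventuallyEq h1, by
    rw [jet2_congr h1, jet2_smul _ h3, Iv.jet2_comp hψ h2, Iv.repL_apply]⟩

/-- the charts of the ends -/
theorem gd_end (e : En D) {ψ : R2 → R2} (hψ : ContDiffAt ℝ 2 ψ v) (hR : X.R0 ≤ R)
    (hq : (ψ v).1 ∈ Ioo (X.zm + 4) (R / 2))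
    (hf : ∀ R ξ, f R ξ =ᶠ[𝓝 v] fun z => X.U R ξ (pt e (ψ z)))
    (hb : ∀ m B, WJ e (ψ v).1 m B → ‖Iv.rep (jet2 ψ v) m‖ ≤ 8 * B) : Gd X f v R (8 * X.C) := by
  have hR' : X.R0 ≤ R + 1 := hR.trans (Nat.le_succ R)
  have hq' : (ψ v).1 ∈ Ioo (X.zm + 4) ((R + 1 : ℕ) / 2) := ⟨hq.1, hq.2.trans (by
    push_cast; linarith)⟩
  have h1 := fun ξ hξ => jet_end e hψ hR hq (ξ := ξ) hξ (hf R ξ)
  have h2 := fun ξ hξ => jet_end e hψ hR' hq' (ξ := ξ) hξ (hf (R + 1) ξ)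
  refine ⟨fun ξ hξ => (h1 ξ hξ).1, fun ξ hξ => (h2 ξ hξ).1, ?_, fun ξ hξ => ?_, fun ξ hξ => ?_, ?_⟩
  · exact (((Iv.repL (jet2 ψ v)).differentiable.comp_differentiableOn
      (X.ext.vhol R hR e _ hq)).const_smul (X.G.s e : ℂ)).congr fun ξ hξ => (h1 ξ hξ).2
  · rw [(h1 ξ hξ).2, norm_smul, norm_s, one_mul]
    exact hb _ _ (X.ext.vb R hR ξ hξ e _ hq)
  · rw [(h1 ξ (X.dom_succ hR hξ)).2, (h2 ξ hξ).2, ← smul_sub, ← map_sub, norm_smul, norm_s, one_mul,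
      mul_assoc]
    exact hb _ _ (X.ext.vstep R hR ξ hξ e _ hq)
  · rw [(h1 0 (X.zero_mem hR)).2, norm_smul, norm_s, one_mul, mul_assoc]
    exact hb _ _ (X.ext.vzero R hR e _ hq)

theorem rep_id (v : R2) (m : J2 ℂ) : Iv.rep (jet2 (fun z : R2 => z) v) m = m := by
  have h := jet_co (h := fun s => s) (h' := fun _ => 1) v hasDerivAt_id (hasDerivAt_const v.1 1)
  rw [show (fun z : R2 => z) = fun y : R2 => (y.1, y.2) from rfl, h]
  ext k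
  fin_cases k <;> simp [Iv.rep]

theorem one_le_s1 (X : Dt D J κ) : 1 ≤ X.s1 := Real.one_le_sqrt.2 (by linarith [X.hz'])

theorem gd_all (hR : X.R0 ≤ R) (k : D6.En D ⊕ κ ⊕ En D) (hv : v ∈ X.Ω k)
    (hσ : X.G.σ (X.Φ k v) < R / 2) : Gd X (fun R ξ z => X.U R ξ (X.Φ k z)) v R
      (X.Cc * X.r + 3 * X.Cc * X.C + 8 * X.C) := by
  have hr := X.box.r_pos
  have hC := X.box.C_pos
  have hC0 := X.ext.C0
  rcases k with e | k | e
  · have hv' : X.s1 < v.1 := hv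
    have h0 : 0 < v.1 := X.s1_pos.trans hv'
    have h1 := X.lt_co e hv'
    have h2 : X.G.σ (D6.endPt D e v) < R / 2 := hσ
    rw [endPt_eq e h0.le, X.G.σ_pt e _ (by linarith [X.hz])] at h2
    obtain ⟨a, b, t, e1, ha, ha2, hb, hb2, -⟩ := co_data e ((one_le_s1 X).trans hv'.le)
    refine (gd_end e ((co_smooth e).contDiffAt.of_le Iv.two_le_inf) hR ⟨h1, h2⟩
      (fun R ξ => (endPt_ev e h0).fun_comp (X.U R ξ)) fun m B h => ?_).mono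
      (le_add_of_nonneg_left (by positivity))
    rw [e1]
    exact wj_rep h (by linarith [X.hz']) ha ha2 hb hb2
  · exact (gd_core hR k hv).mono (le_add_of_nonneg_right (by positivity))
  · have hv' : X.zm + 4 < v.1 := hv
    have h2 : X.G.σ (pt e v) < R / 2 := hσ
    rw [X.G.σ_pt e _ (by linarith [X.hz])] at h2
    refine (gd_end (ψ := fun z => z) e contDiffAt_id hR ⟨hv', h2⟩
      (fun R ξ => EventuallyEq.rfl) fun m B h => ?_).mono (le_add_of_nonneg_left (by positivity))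
    rw [rep_id]
    exact wj_le h (by linarith [X.hz'])

theorem jrad (hR : X.R0 ≤ R) {ξ : J → ℂ} (hξ : ξ ∈ Dom X.I X.c X.r' R) (e : En D)
    (hv : X.s1 < v.1) (h2 : D6.endSg D e v.1 < R / 2) :
    D6.endSc D e v * ‖fderiv ℝ (fun v => X.U R ξ (D6.endPt D e v)) v (D6.endXi D e v)‖ ≤
      2 * X.C := by
  have h0 : 0 < v.1 := X.s1_pos.trans hv
  have hq : (co e v).1 ∈ Ioo (X.zm + 4) (R / 2) := ⟨X.lt_co e hv, h2⟩
  obtain ⟨a, b, t, e1, ha, -, -, -, e2, ht, hs, hs2⟩ := co_data e ((one_le_s1 X).trans hv.le)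
  have h3 := (jet_end e ((co_smooth e).contDiffAt.of_le Iv.two_le_inf) hR hq hξ
    ((endPt_ev e h0).fun_comp (X.U R ξ))).2
  have h4 : ‖fderiv ℝ (fun v => X.U R ξ (D6.endPt D e v)) v (D6.endXi D e v)‖ =
      t * a * ‖jet2 (X.v R ξ e) (co e v) 1‖ := by
    rw [e2, d1]
    erw [h3]
    rw [e1, Iv.repL_apply]
    rcases X.G.s_sq e with h | h <;>
      simp [Iv.rep_one, h, abs_of_nonneg ha, abs_of_nonneg ht, mul_assoc]
  have h5 := (X.ext.vb R hR ξ hξ e _ hq).b1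
  rw [h4, ← mul_assoc]
  exact (mul_le_mul_of_nonneg_right hs2 (norm_nonneg _)).trans (by linarith)

end JetsP

namespace Dt
variable (X : Dt D J κ)

open JetsP in
theorem jetsF : ∃ C, 0 ≤ C ∧ X.JetsF C := by
  have hr := X.box.r_pos
  have hC := X.box.C_pos
  have hC0 := X.ext.C0
  refine ⟨4 * (X.Cc * X.r + 3 * X.Cc * X.C + 8 * X.C), by positivity, fun R hR k v hv hσ => ?_,
    fun R hR ξ hξ k v hv hσ => ?_, fun R hR ξ hξ e v hv h => ?_, fun R hR ξ hξ k v hv hσ => ?_,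
    fun R hR k v hv hσ => ?_⟩
  · exact holJ_of (gd_all hR k hv hσ).c2 (gd_all hR k hv hσ).hol
  · exact jb_of ((gd_all hR k hv hσ).c2 ξ hξ) ((gd_all hR k hv hσ).b ξ hξ)
  · exact (jrad hR hξ e hv h).trans (by nlinarith [mul_pos hC hr, mul_nonneg hC.le hC0])
  · have h := gd_all hR k hv hσ
    rw [mul_assoc]
    exact jb_of ((h.c2' ξ hξ).sub (h.c2 ξ (X.dom_succ hR hξ)))
      ((jet2_sub (h.c2' ξ hξ) (h.c2 ξ (X.dom_succ hR hξ))).symm ▸ h.step ξ hξ)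
  · rw [mul_assoc]
    exact jb_of ((gd_all hR k hv hσ).c2 0 (X.zero_mem hR)) (gd_all hR k hv hσ).zero

end Dt

end Vale.Agent.P218N.Ra
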