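import Vale.Agent.P218N.Ra.Bas
import Vale.Agent.P218N.D6.Nr
import Vale.Agent.P218N.D6.Atl3
import Vale.Agent.P218N.Core.Jac
import Vale.Agent.P218N.Core.VarM

/-! The assembly of `Red`: the linear problem. -/

open Set Filter Topology Metric MeasureTheory
open scoped RealInnerProductSpace ContDiff

noncomputable section

namespace Vale.Agent.P218N.Ra

open Vale.Agent.P218.H313 Vale.Agent.P218N.H Vale.Agent.P218N.G Vale.Agent.P218N.End
  Vale.Agent.P218N.Core Vale.Agent.P218F Vale.Agent.P218GA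
open Vale.Agent.P218N.D6 (JB JP PO endPt endSc endSg)

set_option maxSynthPendingDepth 3
set_option linter.unusedSectionVars false

namespace SolvP

theorem jb_real {f : ℝ → ℝ} {x a b c : ℝ} (hf : ContDiffAt ℝ 2 f x) (h0 : |f x| ≤ a)
    (h1 : |deriv f x| ≤ b) (h2 : |deriv (deriv f) x| ≤ c) : JB f x a b c :=
  ⟨hf, h0, by rw [← norm_deriv_eq_norm_fderiv]; exact h1, by
    rw [← norm_iteratedFDeriv_one, norm_iteratedFDeriv_fderiv,
      norm_iteratedFDeriv_eq_norm_iteratedDeriv, iteratedDeriv_succ, iteratedDeriv_one]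
    exact h2⟩

theorem jb_rpow {c p : ℝ} (hc : 0 < c) (hp : |p| ≤ 1) :
    ∃ K, 0 ≤ K ∧ ∀ x, c ≤ x → JB (fun y : ℝ => y ^ p) x (x ^ p) K K := by
  obtain ⟨h1, h2⟩ := abs_le.1 hp
  have a1 := Real.rpow_pos_of_pos hc (p - 1)
  have a2 := Real.rpow_pos_of_pos hc (p - 1 - 1)
  refine ⟨c ^ (p - 1) + 2 * c ^ (p - 1 - 1), by positivity, fun x hx => ?_⟩
  have h0 := hc.trans_le hx
  have b1 := Real.rpow_le_rpow_of_nonpos hc hx (show p - 1 ≤ 0 by linarith)
  have b2 := Real.rpow_le_rpow_of_nonpos hc hx (show p - 1 - 1 ≤ 0 by linarith)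
  have c1 := Real.rpow_pos_of_pos h0 (p - 1)
  have c2 := Real.rpow_pos_of_pos h0 (p - 1 - 1)
  refine jb_real (Real.contDiffAt_rpow_const_of_ne h0.ne') (abs_of_pos (by positivity)).le ?_ ?_
  · rw [Real.deriv_rpow_const, abs_mul, abs_of_pos c1]
    nlinarith [abs_nonneg p]
  · rw [Real.deriv_rpow_const', deriv_const_mul_field, Real.deriv_rpow_const, abs_mul, abs_mul,
      abs_of_pos c2, abs_of_nonpos (show p - 1 ≤ 0 by linarith)]
    nlinarith [abs_nonneg p, mul_le_mul_of_nonneg_right hp (show 0 ≤ -(p - 1) * x ^ (p - 1 - 1) from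
      mul_nonneg (by linarith) c2.le)]

theorem jb_log {x : ℝ} (hx : 1 ≤ x) : JB Real.log x |Real.log x| 1 1 := by
  refine jb_real (Real.contDiffAt_log.2 (by linarith)) le_rfl ?_ ?_
  · rw [Real.deriv_log, abs_of_pos (by positivity)]
    exact inv_le_one_of_one_le₀ hx
  · rw [Real.deriv_log', deriv_inv, abs_neg, abs_of_pos (by positivity)]
    exact inv_le_one_of_one_le₀ (one_le_pow₀ hx)

theorem norm_R2 {V : Type*} [NormedAddCommGroup V] [NormedSpace ℝ V] {L : R2 →L[ℝ] V} {b : ℝ}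
    (h1 : ‖L (1, 0)‖ ≤ b) (h2 : ‖L (0, 1)‖ ≤ b) : ‖L‖ ≤ 2 * b := by
  have h0 := (norm_nonneg _).trans h1
  refine L.opNorm_le_bound (by positivity) fun v => ?_
  rw [Iv.clm_R2 L]
  refine (norm_add_le_of_le (norm_smul_le _ _) (norm_smul_le _ _)).trans ?_
  linarith [mul_le_mul (norm_fst_le v) h1 (norm_nonneg _) (norm_nonneg _),
    mul_le_mul (norm_snd_le v) h2 (norm_nonneg _) (norm_nonneg _)]

theorem jb_jet {f : R2 → ℝ} {y : R2} {b : ℝ} (hf : ContDiffAt ℝ 2 f y) (h : ‖jet2 f y‖ ≤ b) :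
    JB f y b (2 * b) (2 * (2 * b)) := by
  have k := fun i => (norm_le_pi_norm (jet2 f y) i).trans h
  refine ⟨hf, k 0, norm_R2 (k 1) (k 2), norm_R2 (norm_R2 (k 3) (k 4)) (norm_R2 ?_ (k 5))⟩
  rw [(hf.isSymmSndFDerivAt (by simp)).eq]
  exact k 4

theorem jb_strip {F : R2 → ℝ} {a b : ℝ}
    (hp : ∀ (v : R2) (m : ℤ), F (v.1, v.2 + m * (2 * Real.pi)) = F v) (hF : ∀ v : R2, a ≤ v.1 → ContDiffAt ℝ 2 F v) :
    ∃ C, ∀ v : R2, a ≤ v.1 → v.1 ≤ b → JB F v C C C := by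
  obtain ⟨C, -, hC⟩ := D6.At.jb_cpt (isCompact_Icc.prod isCompact_Icc :
    IsCompact (Icc a b ×ˢ Icc 0 (2 * Real.pi))) fun v hv => hF v hv.1.1
  refine ⟨C, fun v h1 h2 => ?_⟩
  obtain ⟨m, hm⟩ := D6.At.red v.2
  simpa [hp] using (hC (v.1, v.2 + m * (2 * Real.pi)) ⟨⟨h1, h2⟩, Ico_subset_Icc_self hm⟩).comp
    (f := fun y : R2 => (y.1, y.2 + m * (2 * Real.pi)))
    (((JB.id' v).add (JB.const ((0 : ℝ), m * (2 * Real.pi)) v)).congr
      (.of_forall fun y => Prod.ext (add_zero _).symm rfl))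

theorem jb_dec {h : R2 → ℝ} (hh : Decays h) :
    ∀ᶠ s in atTop, ∀ v : R2, s ≤ v.1 → JB (fderiv ℝ h) v 1 1 1 := by
  obtain ⟨a, ha⟩ := hh.small 1 1 one_pos
  obtain ⟨b, hb⟩ := hh.small 2 1 one_pos
  obtain ⟨c, hc⟩ := hh.small 3 1 one_pos
  filter_upwards [eventually_ge_atTop a, eventually_ge_atTop b, eventually_ge_atTop c]
    with s h0 h1 h2 v hv
  refine ⟨D6.At.cd2 (hh.smooth.fderiv_right le_rfl) v, ?_, ?_, ?_⟩
  · simpa only [norm_iteratedFDeriv_one] using ha v (h0.trans hv)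
  · rw [← norm_iteratedFDeriv_one, norm_iteratedFDeriv_fderiv]
    exact hb v (h1.trans hv)
  · rw [← norm_iteratedFDeriv_one, norm_iteratedFDeriv_fderiv, norm_iteratedFDeriv_fderiv]
    exact hc v (h2.trans hv)

section jp

variable {𝓘 X Y Z U : Type*} [NormedAddCommGroup X] [NormedSpace ℝ X] [NormedAddCommGroup Y]
  [NormedSpace ℝ Y] [NormedAddCommGroup Z] [NormedSpace ℝ Z] [NormedAddCommGroup U]
  [NormedSpace ℝ U] {W : 𝓘 → E3} {F : 𝓘 → X → Y} {v : 𝓘 → X}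

theorem jp_bd {C : ℝ} (h : ∀ i, JB (F i) (v i) C C C) : JP W (fun _ => 1) F v :=
  ⟨fun _ => C, h, .const C⟩

theorem jp_comp {G : 𝓘 → Y → Z} {b : 𝓘 → ℝ} (h : JP W (fun _ => 1) G fun i => F i (v i))
    (h' : ∀ i, JB (F i) (v i) ‖F i (v i)‖ (b i) (b i)) (hb : PO W b fun _ => 1) :
    JP W (fun _ => 1) (fun i y => G i (F i y)) v := by
  obtain ⟨a, h0, h1⟩ := h
  have n := fun i => (h0 i).n0
  have n' := fun i => (h' i).n1
  have k := PO.mul_left n n' h1 hb
  exact .of (fun _ => zero_le_one) (fun i => (h0 i).comp (h' i)) h1 k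
    (.add (fun _ => zero_le_one) (.mul_left n (fun i => sq_nonneg _) h1
      (by simpa only [pow_two] using PO.mul_left n' n' hb hb)) k)

theorem jp_bil {F' : 𝓘 → X → Z} (B : Y →L[ℝ] Z →L[ℝ] U) (hB : ‖B‖ ≤ 1)
    (h : JP W (fun _ => 1) F v) (h' : JP W (fun _ => 1) F' v) :
    JP W (fun _ => 1) (fun i y => B (F i y) (F' i y)) v := by simpa using h.bilin B hB h'

theorem jp_inner {F F' : 𝓘 → X → E3} (h : JP W (fun _ => 1) F v) (h' : JP W (fun _ => 1) F' v) :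
    JP W (fun _ => 1) (fun i y => ⟪F i y, F' i y⟫) v :=
  jp_bil (innerSL ℝ : E3 →L[ℝ] E3 →L[ℝ] ℝ) (norm_innerSL_le ℝ) h h'

/-- the cross product as a bilinear map -/
def crsL : E3 →L[ℝ] E3 →L[ℝ] E3 := LinearMap.mkContinuous₂ (LinearMap.mk₂ ℝ Iv.crs
  (fun a b c => by ext i; fin_cases i <;> simp [Iv.crs] <;> ring)
  (fun a b c => by ext i; fin_cases i <;> simp [Iv.crs] <;> ring)
  (fun a b c => by ext i; fin_cases i <;> simp [Iv.crs] <;> ring)
  fun a b c => by ext i; fin_cases i <;> simp [Iv.crs] <;> ring) 1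
  fun a b => (D6.norm_crs_le a b).trans_eq (by rw [one_mul])

theorem jp_crs {F F' : 𝓘 → X → E3} (h : JP W (fun _ => 1) F v) (h' : JP W (fun _ => 1) F' v) :
    JP W (fun _ => 1) (fun i y => Iv.crs (F i y) (F' i y)) v :=
  jp_bil crsL (LinearMap.mkContinuous₂_norm_le _ zero_le_one _) h h'

theorem jp_abs {F : 𝓘 → X → ℝ} (h : JP W (fun _ => 1) F v) (h0 : ∀ i, F i (v i) ≠ 0) :
    JP W (fun _ => 1) (fun i y => |F i y|) v := by
  refine h.imp fun b h => ⟨fun i => ?_, h.2⟩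
  have c := (h.1 i).cd.continuousAt
  rcases (h0 i).lt_or_gt with h1 | h1
  · exact (h.1 i).neg.congr ((c.eventually (gt_mem_nhds h1)).mono fun y hy => abs_of_neg hy)
  · exact (h.1 i).congr ((c.eventually (lt_mem_nhds h1)).mono fun y hy => abs_of_pos hy)

end jp

/-- polynomial bounds for the jets in a chart -/
def PJ (φ : R2 → E3) (S : Set R2) (F : R2 → ℝ) : Prop :=
  JP (fun i : S => φ i) (fun _ => 1) (fun _ => F) Subtype.val

theorem unif {K : Type} [Fintype K] {φ : K → R2 → E3} {S : K → Set R2} {F : K → R2 → ℝ}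
    (h : ∀ k, PJ (φ k) (S k) (F k)) : ∃ (C : ℝ) (Q : ℕ), ∀ k, ∀ v ∈ S k, JB (F k) v
      (C * (1 + ‖φ k v‖) ^ Q) (C * (1 + ‖φ k v‖) ^ Q) (C * (1 + ‖φ k v‖) ^ Q) := by
  choose b h0 C Q h1 h2 using h
  refine ⟨∑ k, C k, ∑ k, Q k, fun k v hv => ?_⟩
  have := ((h2 k ⟨v, hv⟩).trans_eq (mul_one _)).trans (D6.wt_mono (Finset.sum_nonneg fun k _ => h1 k)
    (Finset.single_le_sum (fun k _ => h1 k) (Finset.mem_univ k))
    (Finset.single_le_sum (fun k _ => Nat.zero_le (Q k)) (Finset.mem_univ k)) _)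
  exact (h0 k ⟨v, hv⟩).mono this this this

theorem PJ.union {φ : R2 → E3} {S S' T : Set R2} {F : R2 → ℝ} (h : PJ φ S F) (h' : PJ φ S' F)
    (hT : ∀ v ∈ T, v ∈ S ∨ v ∈ S') : PJ φ T F := by
  obtain ⟨C, Q, h1⟩ := unif (φ := fun _ => φ) (S := fun b => cond b S S') (F := fun _ => F)
    (Bool.forall_bool.2 ⟨h', h⟩)
  exact ⟨_, fun i => (hT i i.2).elim (h1 true i) (h1 false i), .wt C Q⟩

theorem PJ.comp {φ φ' : R2 → E3} {S S' : Set R2} {F b : R2 → ℝ} {τ : R2 → R2} (h : PJ φ S F)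
    (hτ : ∀ v ∈ S', τ v ∈ S) (e : ∀ v ∈ S', φ (τ v) = φ' v)
    (h' : ∀ v ∈ S', JB τ v ‖τ v‖ (b v) (b v))
    (hb : PO (fun i : S' => φ' i) (fun i => b i) fun _ => 1) : PJ φ' S' fun v => F (τ v) := by
  obtain ⟨a, h0, C, Q, h1, h2⟩ := h
  exact jp_comp (F := fun _ => τ) (G := fun _ => F) ⟨fun i => a ⟨τ i, hτ i i.2⟩,
    fun i => h0 ⟨τ i, hτ i i.2⟩, C, Q, h1, fun i => by
      simpa only [e i i.2] using h2 ⟨τ i, hτ i i.2⟩⟩ (fun i => h' i i.2) hb

variable {w : E3 → ℝ} {D : EndData w}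

theorem jp_mod {𝓘 : Type} {W : 𝓘 → E3} {v : 𝓘 → R2} (e : En D)
    (hs : JP W (fun _ => 1) (fun _ => endSc D e) v) (u : R2) :
    JP W (fun _ => 1) (fun _ z => fderiv ℝ (D6.At.bas D e) z u) v ∧
      JP W (fun _ => 1) (fun _ z => fderiv ℝ (D6.At.nor D e) z u) v := by
  have k : ∀ {f g : ℝ → E3}, ContDiff ℝ ∞ f → ContDiff ℝ ∞ g → (∀ θ, f (θ + 2 * Real.pi) = f θ) →
      (∀ θ, g (θ + 2 * Real.pi) = g θ) →
      JP W (fun _ => 1) (fun _ z => endSc D e z • (u.1 • f z.2 + u.2 • deriv g z.2)) v := by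
    intro f g hf hg pf pg
    obtain ⟨C, -, hC⟩ := D6.At.jb_per (f := fun θ => u.1 • f θ + u.2 • deriv g θ)
      ((hf.const_smul _).add ((contDiff_infty_iff_deriv.1 hg).2.const_smul _)) fun θ => by
        rw [pf, ← deriv_comp_add_const, funext pg]
    exact hs.smul (jp_bd fun i => (hC _).comp_snd)
  rcases e with i | j
  · have L := D.link i
    exact ⟨(k L.smooth L.smooth L.per L.per).congr fun _ => .of_forall fun z =>
      D6.At.fderiv_cone L.smooth z u, (k L.nsmooth L.nsmooth L.nper L.nper).congr fun _ =>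
        .of_forall fun z => D6.At.fderiv_cone L.nsmooth z u⟩
  · have s1 : ContDiff ℝ ∞ (D6.At.cir (D.Q j)) := by rw [D6.At.cir_eq]; fun_prop
    have p1 : ∀ θ, D6.At.cir (D.Q j) (θ + 2 * Real.pi) = D6.At.cir (D.Q j) θ := fun θ => by
      simp [D6.At.cir]
    refine ⟨(k (f := fun _ => axis (D.Q j)) contDiff_const s1 (fun _ => rfl) p1).congr fun _ =>
      .of_forall fun z => ?_, (k (f := fun _ => 0) contDiff_const s1 (fun _ => rfl) p1).congr
        fun _ => .of_forall fun z => ?_⟩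
    · simp only [D6.At.bas, Sum.elim_inr, ((D6.At.fderiv_snd' s1 z).fun_add
        ((hasFDerivAt_fst (p := z)).smul_const _)).fderiv]
      simp [endSc, add_comm]
    · simp only [D6.At.nor, Sum.elim_inr, (D6.At.fderiv_snd' s1 z).fderiv]
      simp [endSc]

theorem far {n : E3 → E3} {κ : Type} {ψ : κ → R2 → E3} {U : κ → Set R2} {s1 : ℝ} (hw : Shr w)
    (G : D6.Geo D n ψ U s1) (e : En D) : ∃ s, PJ (endPt D e) {v | s < v.1}
      fun z => ⟪n (endPt D e z), nuW w (endPt D e z)⟫ := by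
  obtain ⟨s, -, -, h1, -⟩ := D6.At.ends hw G
  obtain ⟨C, C', τ, -, P⟩ := h1 e
  obtain ⟨c, δ, M⟩ := D6.At.mod_end D e
  obtain ⟨t, ⟨h2, h3⟩, h4⟩ := (((D6.At.jb_dec (D6.At.hgt_dec D e) one_pos).and
    (jb_dec (D6.At.hgt_dec D e))).and (eventually_ge_atTop s)).exists
  have o : ∀ _ : {v : R2 | t < v.1}, (0 : ℝ) ≤ 1 := fun _ => zero_le_one
  have mem : ∀ {v : R2}, t < v.1 → s < v.1 := fun hv => h4.trans_lt hv
  have a0 : PO (fun i : {v : R2 | t < v.1} => endPt D e i) (fun i => endSc D e i) fun _ => 1 :=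
    .le_trans (fun i => (P.scle i (mem i.2)).trans_eq (by rw [pow_one])) (.wt C 1)
  have a1 := a0.cmul c (zero_le_one.trans M.C1)
  have a2 := a0.cmul C P.C0
  have jN : JP _ _ (fun _ => D6.At.nor D e) Subtype.val := ⟨_, fun i => M.jN _, a1⟩
  have jn : JP _ _ (fun _ z => n (endPt D e z)) Subtype.val := ⟨_, fun i => P.jn _ (mem i.2), a2⟩
  have jD : ∀ u, JP (fun i : {v : R2 | t < v.1} => endPt D e i) (fun _ => 1)
      (fun _ z => fderiv ℝ (endPt D e) z u) Subtype.val := fun u => by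
    obtain ⟨b1, b2⟩ := jp_mod e ⟨_, fun i => M.jsc _, a0⟩ u
    refine (b1.add o (((jp_bd fun i => h2 _ (le_of_lt i.2)).smul b2).add o
      (((jp_bd fun i => h3 _ (le_of_lt i.2)).app
        (jp_bd (C := ‖u‖) fun i => (JB.const u _).mono le_rfl (norm_nonneg _)
          (norm_nonneg _))).smul jN))).congr fun _ => .of_forall fun z => ?_
    simp only [D6.At.endPt_eq, ((M.jb z).has.fun_add (((D6.At.hgt_dec D e).smooth.differentiable
      (by simp) z).hasFDerivAt.fun_smul (M.jN z).has)).fderiv]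
    simp
  have hC : 0 < 1 / (C + 1) := by have := P.C0; positivity
  have lo : ∀ z : R2, t < z.1 → ((1 / (C + 1)) ^ 2) ^ 2 ≤
      gram (fderiv ℝ (endPt D e) z (1, 0)) (fderiv ℝ (endPt D e) z (0, 1)) := fun z hz => by
    rw [← D6.norm_crs_sq, ← D6.ar_eq]
    refine pow_le_pow_left₀ (by positivity) (D6.ar_ge hC.le fun u => ?_) 2
    have b1 := P.low z (mem hz) u 0
    rw [zero_smul, add_zero] at b1
    rw [div_mul_eq_mul_div, div_le_iff₀ (by linarith [P.C0])]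
    nlinarith [mul_le_mul (P.sc1 z (mem hz)) (norm_fst_le (u, (0 : ℝ))) (norm_nonneg _)
      (zero_le_one.trans (P.sc1 z (mem hz))), norm_nonneg (fderiv ℝ (endPt D e) z u)]
  have pos : ∀ z : R2, t < z.1 → 0 < ⟪n (endPt D e z), nuW w (endPt D e z)⟫ := fun z hz => by
    rw [nuW, real_inner_smul_right]
    exact mul_pos (inv_pos.2 (norm_pos_iff.2 (hw.ne _ (P.mem z (mem hz)))))
      (G.npos _ (P.mem z (mem hz)))
  have sq' := fun (z : R2) (hz : t < z.1) => Iv.det_sq (((by positivity : (0 : ℝ) < _).trans_le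
    (lo z hz)).ne') (norm_nuW (hw.ne _ (P.mem z (mem hz))))
    (inner_nuW_d1 hw.smooth (P.jφ z (mem hz)).cd ((ev_lt (mem hz)).mono P.mem) _)
    (inner_nuW_d1 hw.smooth (P.jφ z (mem hz)).cd ((ev_lt (mem hz)).mono P.mem) _)
    (n (endPt D e z))
  obtain ⟨K, K0, hK⟩ := jb_rpow (c := ((1 / (C + 1)) ^ 2) ^ 2) (p := -(1 / 2)) (by positivity)
    (by norm_num [abs_le])
  have jc := jp_crs (jD (1, 0)) (jD (0, 1))
  refine ⟨t, ((jp_abs (jp_inner jn jc) fun i h => ?_).smul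
    (JP.comp (G := fun _ y => y ^ (-(1 / 2) : ℝ)) (.of o (fun i => ?_)
      (.const ((((1 / (C + 1)) ^ 2) ^ 2) ^ (-(1 / 2) : ℝ))) (.const K) (.const K)) (jp_inner jc jc))).congr fun i => (ev_lt i.2).mono fun z hz => ?_⟩
  · have := sq' i i.2
    rw [h] at this
    nlinarith [mul_pos ((by positivity : (0 : ℝ) < _).trans_le (lo i i.2)) (pow_pos (pos i i.2) 2)]
  · rw [Iv.crs_sq]
    exact (hK _ (lo i i.2)).mono (Real.rpow_le_rpow_of_nonpos (by positivity) (lo i i.2)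
      (by norm_num)) le_rfl le_rfl
  · have g0 := (by positivity : (0 : ℝ) < _).trans_le (lo z hz)
    simp only [Iv.crs_sq, smul_eq_mul]
    rw [← Real.sqrt_sq_eq_abs, sq' z hz, Real.sqrt_mul g0.le, Real.sqrt_sq (pos z hz).le,
      Real.rpow_neg g0.le, ← Real.sqrt_eq_rpow]
    field_simp

/-- the change of coordinates `(ζ, θ) ↦ (s, θ)` -/
def ico (e : En D) (q : R2) : R2 :=
  (Sum.elim (fun _ => Real.log q.1 / 2) (fun _ => √q.1) e, q.2)

theorem pt_eq (e : En D) (q : R2) : pt e q = endPt D e (ico e q) := by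
  rcases e with i | j <;> rfl

theorem jb_ico (e : En D) : ∃ K, ∀ q : R2, 1 ≤ q.1 → JB (ico e) q ‖ico e q‖ K K := by
  rcases e with i | j
  · refine ⟨2, fun q hq => ?_⟩
    refine (((((jb_log hq).cmul (1 / 2)).comp_fst.prodMk (JB.snd q)).congr
      (.of_forall fun z => ?_)).val le_rfl).mono le_rfl (by norm_num) (by norm_num)
    simp [ico, div_eq_inv_mul]
  · obtain ⟨K, -, hK⟩ := jb_rpow (p := 1 / 2) one_pos (by norm_num [abs_le])
    refine ⟨K + 1, fun q hq => ((((hK _ hq).comp_fst.prodMk (JB.snd q)).congr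
      (.of_forall fun z => ?_)).val le_rfl).mono le_rfl le_rfl (by linarith)⟩
    simp [ico, Real.sqrt_eq_rpow]

theorem le_ico (e : En D) {q : R2} {z : ℝ} (h1 : 1 ≤ z) (h : z ≤ q.1) :
    Real.log z / 2 ≤ (ico e q).1 := by
  have h2 := Real.log_le_log (by linarith) h
  rcases e with i | j
  · exact div_le_div_of_nonneg_right h2 zero_le_two
  · have := Real.log_le_sub_one_of_pos (Real.sqrt_pos.2 (show 0 < q.1 by linarith))
    rw [Real.log_sqrt (by linarith)] at this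
    exact (show _ ≤ √q.1 by linarith)

theorem jb_co (e : En D) {v : R2} (hv : 1 ≤ v.1) :
    JB (co e) v ‖co e v‖ (4 * (co e v).1 + 1) (4 * (co e v).1 + 1) := by
  rcases e with i | j
  · have e1 : ∀ z : R2, (co (D := D) (.inl i) z).1 = Real.exp z.1 * Real.exp z.1 := fun z => by
      simp [co, endSg, two_mul, Real.exp_add]
    have := mul_pos (Real.exp_pos v.1) (Real.exp_pos v.1)
    rw [e1]
    exact (((((D6.At.jb_exp v).mul (D6.At.jb_exp v)).prodMk (JB.snd v)).congr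
      (.of_forall fun z => Prod.ext (e1 z) rfl)).val le_rfl).mono le_rfl (by linarith) (by linarith)
  · have e1 : ∀ z : R2, (co (D := D) (.inr j) z).1 = z.1 * z.1 := fun z => sq _
    rw [e1]
    refine (((((JB.fst v).mul (JB.fst v)).prodMk (JB.snd v)).congr
      (.of_forall fun z => Prod.ext (e1 z) rfl)).val le_rfl).mono le_rfl ?_ (by nlinarith)
    rw [Real.norm_eq_abs, abs_of_pos (by linarith)]
    nlinarith

theorem le_pt (e : En D) {q : R2} (q2 : 0 < q.1) : q.1 ≤ (1 + ‖pt e q‖) ^ 2 := by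
  refine le_trans ?_ (pow_le_pow_left₀ (norm_nonneg _) (le_add_of_nonneg_left zero_le_one) 2)
  rcases e with i | b
  · have L := D.link i
    have h2 := real_inner_le_norm (pt (D := D) (.inl i) q) (D.γ i q.2)
    rw [L.norm, mul_one] at h2
    simp only [pt, conePt, inner_add_left, inner_smul_left, L.orth, real_inner_self_eq_norm_sq,
      L.norm, conj_trivial, Real.exp_half, Real.exp_log q2] at h2 ⊢
    nlinarith [Real.sq_sqrt q2.le, Real.sqrt_nonneg q.1]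
  · simp only [pt, cylPt, LinearIsometryEquiv.norm_map, ← real_inner_self_eq_norm_sq, inner3,
      Matrix.cons_val, Real.mul_self_sqrt q2.le]
    nlinarith [mul_self_nonneg (√2 * (1 + D.v b (√q.1, q.2)) * Real.cos q.2),
      mul_self_nonneg (√2 * (1 + D.v b (√q.1, q.2)) * Real.sin q.2)]

theorem cd_m (G : Geo D) {φ : R2 → E3} {y : R2} (hφ : ContDiffAt ℝ 2 φ y) (h : w (φ y) = 0) :
    ContDiffAt ℝ 2 (fun z => ⟪G.nn (φ z), nuW w (φ z)⟫) y :=
  ((D6.At.cd2 G.nn_sm _).comp y hφ).inner ℝ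
    (((contDiffAt_nuW G.shr.smooth (G.shr.ne _ h)).of_le Iv.two_le_inf).comp y hφ)

end SolvP

open SolvP

variable {w : E3 → ℝ} {D : EndData w} {J κ : Type} [Fintype J] [DecidableEq J] [Fintype κ]

namespace Dt
variable (X : Dt D J κ)

theorem solvF (hG : X.GeoF) : X.SolvF := by
  intro W c' K hW h0 h1 f hf hs
  obtain ⟨u, μ, C, uc, ub, ue, uo⟩ := X.psi.solv (fun p => f p / ⟪X.G.nn p, nuW w p⟫)
    (fun P y hy => ((D6.At.cd2 hf _).comp y (P.cdAt2 hy)).div
      (cd_m X.G (P.cdAt2 hy) (P.maps y hy).1) (X.G.pos _ (P.maps y hy).1).ne') (by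
      obtain ⟨R, hR⟩ := hs.isCompact.isBounded.subset_ball 0
      exact ⟨R, fun p _ h => div_eq_zero_iff.2 (.inl (image_eq_zero_of_notMem_tsupport fun h' =>
        (mem_ball_zero_iff.1 (hR h')).not_ge h))⟩)
  have z1 := X.G.one_le
  have z2 := X.hz
  have key : ∀ e : En D, PJ (pt e) {q | X.zm + 4 < q.1}
      fun q => ⟪X.G.nn (pt e q), nuW w (pt e q)⟫ * u (pt e q) := fun e => by
    obtain ⟨s, b1⟩ := far X.G.shr hG.geo e
    obtain ⟨C1, b2⟩ := jb_strip (b := s) (fun v m => by rw [D6.At.endPt_per]) fun v hv =>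
      cd_m X.G (D6.At.cd2 (D6.At.endPt_smooth D e) v) (D6.At.end_mem D e v (X.G.s0.trans_le hv))
    have b3 : PJ _ {v | Real.log X.G.z0 / 2 ≤ v.1} _ := b1.union
      (S' := {v | Real.log X.G.z0 / 2 ≤ v.1 ∧ v.1 ≤ s}) (jp_bd fun i => b2 _ i.2.1 i.2.2)
      fun v hv => (lt_or_ge s v.1).imp id fun h => ⟨hv, h⟩
    obtain ⟨K1, b4⟩ := jb_ico e
    have lt : ∀ i : {q : R2 | X.zm + 4 < q.1}, X.zm + 4 < i.1.1 := fun i => i.2
    have b5 := b3.comp (φ' := pt e) (S' := {q | X.zm + 4 < q.1}) (τ := ico e) (b := fun _ => K1)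
      (fun q h => le_ico e z1 (by linarith [lt ⟨q, h⟩])) (fun q _ => (pt_eq e q).symm)
      (fun q h => b4 _ (by linarith [lt ⟨q, h⟩])) (.const K1)
    simp only [← pt_eq] at b5
    refine JP.smul b5 (.of (fun _ => zero_le_one) (fun i => jb_jet ?_ ?_) (.wt |C| 4)
          (.cmul 2 zero_le_two (.wt |C| 4)) (.cmul 2 zero_le_two (.cmul 2 zero_le_two (.wt |C| 4))))
    · rw [← X.G.ep_φ e i.1.2]
      refine uc _ _ ?_
      rw [X.G.ep_O]
      exact ⟨show X.G.z0 < _ by linarith [lt i], by linarith [Real.pi_pos], by linarith [Real.pi_pos]⟩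
    · refine (ub e i (by linarith [lt i])).trans (mul_le_mul (le_abs_self C) ?_ (sq_nonneg _)
        (abs_nonneg C))
      exact (pow_le_pow_left₀ (by linarith [lt i]) (le_pt e (by linarith [lt i])) 2).trans_eq
        (by ring)
  obtain ⟨C', q', hC⟩ := unif (φ := X.Φ) (S := X.Ω)
    (F := fun k v => ⟪X.G.nn (X.Φ k v), nuW w (X.Φ k v)⟫ * u (X.Φ k v)) (Sum.forall.2 ⟨fun e => by
      have s1 : ∀ v ∈ {v : R2 | X.s1 < v.1}, 1 ≤ v.1 := fun v hv =>
        (Real.one_le_sqrt.2 (by linarith)).trans (le_of_lt hv)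
      have e1 := fun v hv => (endPt_eq e (zero_le_one.trans (s1 v hv))).symm
      exact ((key e).comp (fun v => X.lt_co e) e1 (fun v hv => jb_co e (s1 v hv)) (.add
        (fun _ => zero_le_one) (.cmul 4 (by norm_num) (.le_trans (fun i => (le_pt e (by
          linarith [X.lt_co e i.2])).trans_eq (by rw [e1 i i.2, one_mul])) (.wt 1 2)))
        .refl)).congr fun i => (endPt_ev e (X.s1_pos.trans i.2)).mono fun z hz =>
        congrArg (fun p => ⟪X.G.nn p, nuW w p⟫ * u p) hz, Sum.forall.2 ⟨fun k => by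
      obtain ⟨K, b1, b2, b3⟩ := X.ch.rel k
      obtain ⟨C1, -, b4⟩ := D6.At.jb_cpt b1 fun y hy => (cd_m X.G ((X.P k).cdAt2 (b3 hy))
        ((X.P k).maps y (b3 hy)).1).mul (uc _ y (b3 hy))
      exact jp_bd fun i => b4 _ (b2 i.2), key⟩⟩)
  refine ⟨fun p => ⟪X.G.nn p, nuW w p⟫ * u p, μ, C', q', hC, fun ζ hζ e p hp => ?_, fun j => ?_⟩
  · have b1 := jacStmt w D X.G X.zm W c' K hW h0 h1 u ζ hζ e p hp
    rw [show X.G.LG X.zm (fun x => (u x : ℂ)) p = _ from ue p hp, ← Complex.ofReal_mul,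
      Complex.ofReal_inj] at b1
    rw [b1, mul_add, mul_div_cancel₀ _ (X.G.pos p hp).ne', Finset.mul_sum]
    exact congrArg _ (Finset.sum_congr rfl fun _ _ => by ring)
  · have b1 := uo j
    simp only [Geo.ip, cF, ← Complex.ofReal_mul, integral_complex_ofReal,
      Complex.ofReal_eq_zero] at b1
    have b2 : sig 2 w = cH 2 • muS w := by
      rw [sig, hausdorff_eq_smul, Measure.restrict_smul, muS]
    rw [b2, integral_smul_nnreal_measure]
    exact smul_eq_zero_of_right _ ((integral_congr_ae (.of_forall fun p => by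
      simp only [Geo.om]; ring)).trans b1)

end Dt

end Vale.Agent.P218N.Ra
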