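import Vale.Agent.P218N.Ra.Red
import Vale.Agent.P218N.Ra.ExtS
import Vale.Agent.P218N.Ra.Area
import Vale.Agent.P218N.Ra.Jets
import Vale.Agent.P218N.Ra.Eq
import Vale.Agent.P218N.Ra.Solv
import Vale.Agent.P218N.Core.Top
import Vale.Agent.P218N.Top.Main

/-! Block D from the block EXT. -/

open Set Filter Topology Metric

noncomputable section

namespace Vale.Agent.P218N.Ra

open Vale.Agent.P218N.H Vale.Agent.P218N.End Vale.Agent.P218N.Core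

theorem modelOfEnds_of (hE : ExtStmt) : Top.ModelOfEnds := by
  rintro w ⟨hw, ⟨D⟩⟩ hne
  obtain ⟨jE, dS, πS, Z, C, h1⟩ := realEnds hw D
  obtain ⟨G, z1, h2⟩ := coreStmt w D jE dS πS Z C hw hne h1
  obtain ⟨z2, h3⟩ := hE w D jE dS πS Z C h1 G
  obtain ⟨zm, a1, a2, a3, a4⟩ : ∃ zm, z1 ≤ zm ∧ z2 ≤ zm ∧ G.z0 + 1 ≤ zm ∧ 1000 ≤ zm :=
    ((eventually_ge_atTop z1).and ((eventually_ge_atTop z2).and
      ((eventually_ge_atTop _).and (eventually_ge_atTop _)))).exists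
  obtain ⟨N, M, ψ, P, O, C0, g, ρ, b1, b2, b3, b4⟩ := h2 zm a1
  obtain ⟨n, r, C', u, jc, lm, Fc, hn, hb, I, c, r', κ', C, R0, yf, cf, om, v, F, he⟩ :=
    h3 zm a2 N M ψ P O C0 g ρ b1 b3 b4
  let X : Dt D (Fin N ⊕ Fin D.b) (Fin M) := ⟨G, zm, ψ, P, O, _, n, r, C', u, jc, lm, Fc, I, c, r',
    κ', C, R0, yf, cf, om, v, F, a3, a4, hn, b1, b2, hb, he⟩
  obtain ⟨C1, c1, k1⟩ := X.jetsF
  obtain ⟨C2, c2, k2⟩ := X.eqF X.geoF
  obtain ⟨C3, k4⟩ := X.red c1 c2 k1 k2 X.areaF (X.solvF X.geoF)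
  obtain ⟨V, V', psi, lam, c', K, q, β, k5⟩ := k4.model
  exact ⟨_, _, _, inferInstance, _, _, V, V', psi, lam, c', K, q, β, k5⟩

end Vale.Agent.P218N.Ra
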