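import Vale.Agent.P218N.Ra.Geo
import Vale.Agent.P218N.D6.Main

/-! The assembly of `Red`. -/

open Set Filter Topology Metric MeasureTheory
open scoped RealInnerProductSpace ContDiff

noncomputable section

namespace Vale.Agent.P218N.Ra.Dt

open Vale.Agent.P218.H313 Vale.Agent.P218N.H Vale.Agent.P218N.G Vale.Agent.P218N.End
  Vale.Agent.P218N.Core Vale.Agent.P218F Vale.Agent.P218GA

set_option maxSynthPendingDepth 3

variable {w : E3 → ℝ} {D : EndData w} {J κ : Type} [Fintype J] [DecidableEq J] (X : Dt D J κ)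

theorem red {C1 C2 : ℝ} (c1 : 0 ≤ C1) (c2 : 0 ≤ C2) (h1 : X.JetsF C1) (h2 : X.EqF C2)
    (h3 : X.AreaF) (h4 : X.SolvF) : ∃ C, D6.Red D X.G.nn X.φ X.V X.s1 X.G.σ (X.G.chi X.zm) X.Gr X.I
      X.c X.r' X.κ' C (cH 2 : ℝ)⁻¹ 0 X.R0 X.U X.lam X.F X.ψ X.lag := by
  obtain ⟨C3, c3, h5⟩ := X.lamF
  have h0 := X.geoF
  have c4 := X.ext.C0
  have a1 : C1 ≤ C1 + C2 + C3 + X.C := by linarith
  have a3 : C3 ≤ C1 + C2 + C3 + X.C := by linarith
  have m : ∀ {a : ℝ} {R : ℕ}, a ≤ C1 + C2 + C3 + X.C → a * Real.exp (-(X.κ' * R)) ≤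
      (C1 + C2 + C3 + X.C) * Real.exp (-(X.κ' * R)) := fun h =>
    mul_le_mul_of_nonneg_right h (Real.exp_pos _).le
  exact ⟨C1 + C2 + C3 + X.C, X.G.shr, h0.geo, X.ext.c0, X.ext.r0, X.ext.κ0,
    inv_pos.2 (cH_pos' 2), X.R01, X.G.σ_sm.continuous, h0.σe, h0.χs, h0.χe, h0.Gs, h0.G0, h1.hol,
    fun R hR ξ hξ k v hv h => (h1.jb R hR ξ hξ k v hv h).mono a1 a1 a1,
    fun R hR ξ hξ e v hv h => (h1.jrad R hR ξ hξ e v hv h).trans a1,
    fun R hR ξ hξ k v hv h => (h1.step R hR ξ hξ k v hv h).mono (m a1) (m a1) (m a1),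
    fun R hR k v hv h => (h1.zero R hR k v hv h).mono (m a1) (m a1) (m a1), X.psi.cont, X.psi.cpt,
    fun R hR x hx k v hv h => (h2.eq R hR x hx k v hv h).trans (by gcongr; linarith), h5.lhol,
    fun ξ hξ => (h5.lb ξ hξ).trans a3, fun R hR ξ hξ => (h5.lstep R hR ξ hξ).trans (m a3),
    fun R hR => (h5.lzero R hR).trans (m a3),
    fun R hR x hx => (h5.dF R hR x hx).trans (by gcongr), X.ext.concl, h2.lagc,
    fun R hR x hx => (h3 R hR x hx).trans (m (by linarith)), h5.inj, X.psi.indep, rfl, h4⟩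

end Vale.Agent.P218N.Ra.Dt
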